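import Vale.Agent.P301Z.Sn.Defs
import Vale.Agent.P281Z.Rs.All

/-!
# P301, block SNC: the model of a family, with the class of the Kähler metric on the fibres
-/

open scoped Manifold ContDiff Topology ComplexOrder
open Set Filter
open Vale.Agent.P272.K
open Vale.Agent.P277Z (Hol at_chart)
open Vale.Agent.P277Z.Slc (LEq Snc Ind dd stUnit isClosed_of_leq)
open Vale.Agent.P277Z.Slc.Dv (dense_compl)
open Vale.Agent.P277Z.Pos (SPshAt FlatAt PosAt rb kah)
open Vale.Agent.P277Z.Hl.PosbH (sp_cont flat_of)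
open Vale.Agent.P284Y.Lib (two_le_inf)
open Vale.Agent.P281Z Vale.Agent.P281Z.Rs Vale.Agent.P281Z.Rs.Kahr
open Vale.Agent.P299.D (FormM pullM jacF)
open Vale.Agent.P299.H956 (pullM_eq cHess_compR rep_hol)

noncomputable section

namespace Vale.Agent.P301Z.Sn

namespace Rv

variable {n N : ℕ} {Y W : Type} [TopologicalSpace Y] [ChartedSpace (Cm n) Y] [TopologicalSpace W]
  [ChartedSpace (Cm N) W] {y : Y}

theorem flat_sum {κ : Type} (s : Finset κ) (c : κ → ℝ) {a : κ → Y → ℝ}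
    (h : ∀ l, FlatAt n (a l) y) : FlatAt n (fun x => ∑ l ∈ s, c l * a l x) y := by
  classical
  induction s using Finset.induction_on with
  | empty => exact fun e _ => ⟨by simpa using contDiffAt_const, by
      have : ∀ j : Fin n, dzb j (fun _ => (0 : ℂ)) = fun _ => 0 := fun j => funext fun z => by
        simp [dzb]
      ext i j
      simp [cHess, dz, this]⟩
  | insert l s hl ih => exact flat_comb (c l) (h l) ih (.of_forall fun x => Finset.sum_insert hl)

variable [IsManifold 𝓘(ℂ, Cm n) ω Y] [IsManifold 𝓘(ℂ, Cm N) ω W]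

theorem pull_pot {i : Y → W} (hi : HolM n N i) {c : Chart n Y} {e : Chart N W} (hc : At c y)
    (he : At e (i y)) {p : W → ℝ} (hp : ContDiffAt ℝ ∞ (fun z => p (e.symm z)) (e (i y))) :
    ContDiffAt ℝ ∞ (fun z => p (i (c.symm z))) (c y) ∧ cHess (fun z => p (i (c.symm z))) (c y) =
      (jacF i c e y).transpose * cHess (fun z => p (e.symm z)) (e (i y)) *
        (jacF i c e y).map (starRingEnd ℂ) := by
  have h1 : (fun z => p (i (c.symm z))) =ᶠ[𝓝 (c y)]
      fun z => (fun t => p (e.symm t)) (e (i (c.symm z))) :=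
    (ev_src hi hc he).mono fun z hz => by simp only [hz]
  have h2 : ContDiffAt ℝ ∞ (fun t => p (e.symm t)) (e (i (c.symm (c y)))) := by
    rwa [hc.left_inv]
  refine ⟨(ContDiffAt.comp (f := fun z => e (i (c.symm z))) (c y) h2
    ((an_chart hi hc he).restrictScalars (𝕜 := ℝ)).contDiffAt).congr_of_eventuallyEq h1, ?_⟩
  rw [cHess_congr h1, cHess_compR (h2.of_le two_le_inf) (an_chart hi hc he).contDiffAt,
    hc.left_inv]
  rfl

/-- the potentials on `V` -/
theorem core {V : Mf n} {π : V.X → W} {r : ℕ} {G : Fin r → Set V.X} {c : Fin r → ℚ} {v : V.X → ℝ}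
    (hπ : HolM n N π)
    (hP : ∀ y, ∃ (ζ : Fin r → V.X → ℂ) (m : ℕ) (g : Fin m → W → ℂ) (h : V.X → ℝ),
      (∀ l, LEq n (G l) y (ζ l)) ∧ (∀ i, Hol N (g i) (π y)) ∧ SPshAt n h y ∧
      ∀ᶠ z in 𝓝 y, (∀ l, z ∉ G l) →
        h z = v z + ∑ i, ‖g i (π z)‖ ^ 2 - 2 * ∑ l, (c l : ℝ) * Real.log ‖ζ l z‖)
    {ι : Type} {U : ι → Set W} {ψ : ι → W → ℝ} (hU : ∀ i, IsOpen (U i)) (hc : ∀ x, ∃ i, x ∈ U i)
    (hψ : ∀ i, ∀ x ∈ U i, PosAt N (ψ i) x)
    (hf : ∀ i j, ∀ x ∈ U i, x ∈ U j → FlatAt N (fun x => ψ i x - ψ j x) x) :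
    ∃ (T : Type) (O : T → Set V.X) (i : T → ι) (k : ℝ) (u : T → V.X → ℝ) (Φ : V.X → ℝ), 0 < k ∧
      (∀ a, IsOpen (O a)) ∧ (∀ y, ∃ a, y ∈ O a) ∧
      (∀ a, ∀ z ∈ O a, π z ∈ U (i a) ∧ PosAt n (u a) z) ∧
      (∀ a b, ∀ z ∈ O a, z ∈ O b → FlatAt n (fun x => u a x - u b x) z) ∧
      ∀ a, ∀ z ∈ O a, (∀ l, z ∉ G l) →
        FlatAt n (fun x => u a x - (k * ψ (i a) (π x) + Φ x)) z := by
  choose ζ d g h a1 a2 a3 a4 using hP
  choose i hi using fun y => hc (π y)
  choose k₀ hk using fun y => loc hπ (a3 y) (mem_of_superset ((hU _).mem_nhds (hi y)) (hψ (i y)))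
    (a2 y) (q := 1) one_pos
  choose O hz hO hy using fun y => eventually_nhds_iff.1 ((hk y).and ((a4 y).and
    ((eventually_all.2 fun l => (a1 y l).near).and
      (hπ.continuous.continuousAt.eventually ((hU _).mem_nhds (hi y))))))
  obtain ⟨T, hT⟩ := isCompact_univ.elim_finite_subcover O hO fun y _ => mem_iUnion.2 ⟨y, hy y⟩
  have hG : ∀ l x, ∃ ζ, LEq n (G l) x ζ := fun l x => ⟨_, a1 x l⟩
  set k := T.sup k₀ + 1
  let u : T → V.X → ℝ := fun a x => k * ψ (i a) (π x) + 1 * (h a x - ∑ j, ‖g a j (π x)‖ ^ 2)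
  have hu : ∀ a : T, ∀ z ∈ O a, SPshAt n (u a) z := fun a z h =>
    (hz a z h).1 k ((Finset.le_sup a.2).trans (Nat.le_succ _))
  have g3 : ∀ (a : T), ∀ z ∈ O a, (∀ l, z ∉ G l) → u a z =
      k * ψ (i a) (π z) + v z + ∑ l, -(c l : ℝ) * Real.log (‖ζ a l z‖ ^ 2) := fun a z ha hE => by
    simp only [u, (hz a z ha).2.1 hE, Real.log_pow, neg_mul, Finset.sum_neg_distrib,
      mul_left_comm _ ((2 : ℕ) : ℝ), ← Finset.mul_sum]
    push_cast
    ring
  have hC : ∀ l, IsOpen (G l)ᶜ := fun l => (isClosed_of_leq (hG l)).isOpen_compl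
  have hD : Dense (⋂ l, (G l)ᶜ) := dense_iInter_of_isOpen hC fun l => dense_compl (hG l)
  have g5 : ∀ (a b : T), ∀ z ∈ O a, z ∈ O b → FlatAt n (fun x => u a x - u b x) z := by
    intro a b z ha hb
    choose t t1 t2 t3 using fun l => stUnit n V.X (G l) z _ _ ((hz b z hb).2.2.1 l)
      ((hz a z ha).2.2.1 l)
    have f1 := fun x (ha : x ∈ O a) (hb : x ∈ O b) =>
      flat_comp hπ (hf (i a) (i b) (π x) (hz a x ha).2.2.2 (hz b x hb).2.2.2)
    have f2 := fun x (h1 : ∀ l, Hol n (t l) x) (h2 : ∀ l, t l x ≠ 0) =>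
      flat_sum Finset.univ (fun l => -(c l : ℝ)) fun l =>
        flat_of (h1 l) (h2 l) (.of_forall fun _ => rfl)
    refine flat_comb k (f1 z ha hb) (f2 z t1 t2) ?_
    filter_upwards [(hO a).mem_nhds ha, (hO b).mem_nhds hb, eventually_all.2 fun l => (t1 l).near,
      ((eventually_all.2 fun l => (t1 l).cont.eventually_ne (t2 l)).and
        (eventually_all.2 t3)).eventually_nhds] with x b1 b2 b3 b4
    refine tendsto_nhds_unique_of_frequently_eq ((sp_cont (hu a x b1)).sub (sp_cont (hu b x b2)))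
      ((continuousAt_const.mul (flat_cont (f1 x b1 b2))).add
        (flat_cont (f2 x b3 b4.self_of_nhds.1)))
      (((mem_closure_iff_frequently.1 (hD x)).and_eventually
        ((((hO a).inter (hO b)).eventually_mem ⟨b1, b2⟩).and b4)).mono fun w hw => ?_)
    have hE := mem_iInter.1 hw.1
    have h2 : ∀ l, Real.log (‖ζ a l w‖ ^ 2) =
        Real.log (‖t l w‖ ^ 2) + Real.log (‖ζ b l w‖ ^ 2) := fun l => by
      rw [hw.2.2.2 l, norm_mul, mul_pow, Real.log_mul (pow_ne_zero _ (norm_ne_zero_iff.2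
        (hw.2.2.1 l))) (pow_ne_zero _ (norm_ne_zero_iff.2
          (mt ((hz b w hw.2.1.2).2.2.1 l).mem.1 (hE l))))]
    simp only [Pi.sub_apply, Pi.add_apply, Pi.mul_apply, g3 a w hw.2.1.1 hE, g3 b w hw.2.1.2 hE,
      h2, mul_add, Finset.sum_add_distrib]
    ring
  have hcov : univ ⊆ ⋃ a : T, O a := fun y h => by
    obtain ⟨a, h1, h2⟩ := mem_iUnion₂.1 (hT h)
    exact mem_iUnion.2 ⟨⟨a, h1⟩, h2⟩
  obtain ⟨γ, O', -, o2, o3⟩ := rb n V.X T (fun a => O a) u univ isCompact_univ (fun a => hO a)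
    hcov hu g5
  refine ⟨T, fun a => O a, fun a => i a, k, fun a x => u a x + γ x, fun x => v x + γ x,
    by positivity, fun a => hO a, fun x => mem_iUnion.1 (hcov (mem_univ x)), fun a z ha =>
      ⟨(hz a z ha).2.2.2, o3 a z (o2 (mem_univ z)) ha⟩, fun a b z ha hb => ?_, fun a z ha hE => ?_⟩
  · simp only [add_sub_add_right_eq_sub]
    exact g5 a b z ha hb
  · have f := flat_sum Finset.univ (fun l => -(c l : ℝ)) fun l =>
      flat_of ((hz a z ha).2.2.1 l).hol (mt ((hz a z ha).2.2.1 l).mem.1 (hE l))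
        (.of_forall fun _ => rfl)
    refine flat_comb 0 f f ?_
    filter_upwards [(hO a).mem_nhds ha, eventually_all.2 fun l => (hC l).mem_nhds (hE l)]
      with x b1 b2
    rw [g3 a x b1 b2]
    ring

theorem alg {n k D p : ℕ} (hD : n + k = D) {L : Cm n →L[ℂ] Cm D} (hL : Function.Injective L)
    {h : Fin p ⊕ Fin k → Cm D →L[ℂ] ℂ} (hi : LinearIndependent ℂ h)
    (h0 : ∀ a, (h (.inr a)).comp L = 0) (w : Cm p) : ∃ v, ∀ j, h (.inl j) (L v) = w j := by
  have k1 := (ContinuousLinearMap.pi fun a => h (.inr a)).toLinearMap.finrank_range_add_finrank_ker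
  rw [LinearMap.range_eq_top.2 ((P277Z.Slc.ind_iff_surj fun a => h (.inr a)).1
    (hi.comp _ Sum.inr_injective)), finrank_top] at k1
  have k2 : L.toLinearMap.range ≤ (ContinuousLinearMap.pi fun a => h (.inr a)).toLinearMap.ker := by
    rintro _ ⟨w, rfl⟩
    exact funext fun a => DFunLike.congr_fun (h0 a) w
  have k3 := Submodule.eq_of_le_of_finrank_eq k2 (by
    rw [LinearMap.finrank_range_of_inj hL]
    simp at k1 ⊢
    omega)
  obtain ⟨v, hv⟩ := (P277Z.Slc.ind_iff_surj _).1 hi (Sum.elim w 0)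
  obtain ⟨v', rfl⟩ := k3.ge (funext fun a => congrFun hv (.inr a) : v ∈ _)
  exact ⟨v', fun j => congrFun hv (.inl j)⟩

theorem sbm_of {D k p : ℕ} {M : Mf D} {C : Mf p} {c : M.X → C.X} {π : Y → M.X} (hc : HolM D p c)
    (hπ : HolM n D π) (hi : Imm n D π y) {h : Fin k → M.X → ℂ} {τ : Fin p → C.X → ℂ}
    (h1 : n + k = D) (h2 : ∀ j, Hol p (τ j) (c (π y)))
    (h3 : Ind D (Sum.elim (fun j y => τ j (c y)) h) (π y)) (h4 : ∀ᶠ z in 𝓝 y, ∀ a, h a (π z) = 0) :
    Sbm n p (fun y => c (π y)) y := by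
  intro e e' he he'
  have hd := at_chart (n := D) (π y)
  have k1 := alg h1 (hi e _ he hd) (h3.2 _ hd) fun a =>
    (dd_comp (f := π) (h3.1 (.inr a)) (hπ.at y) he hd).symm.trans
      ((P277Z.Slc.dd_congr (h4.mono fun z hz => hz a) he).trans (by simp [dd]))
  let T := ContinuousLinearMap.pi fun j => dd (τ j) e' (c (π y))
  have k2 : ∀ w, ∃ v, T (df (fun y => c (π y)) e e' y v) = w := fun w =>
    (k1 w).imp fun v hv => funext fun j => ((DFunLike.congr_fun
      (dd_comp (f := fun y => c (π y)) (h2 j) ((hc.comp hπ).at y) he he') v).symm.trans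
        (DFunLike.congr_fun (dd_comp (f := π) (h3.1 (.inl j)) (hπ.at y) he hd) v)).trans (hv j)
  have k3 : Function.Injective T.toLinearMap :=
    LinearMap.injective_iff_surjective.2 fun w => (k2 w).elim fun v hv => ⟨_, hv⟩
  exact fun w => (k2 (T w)).imp fun v hv => k3 hv

end Rv

open Rv Ou in
/-- the model of a family over a base of any dimension -/
theorem resz {D n p : ℕ} (M : Mf D) (C : Mf p) (c : M.X → C.X) (A : Set M.X) (S : Set C.X)
    (hn : 0 < n) (hc : HolM D p c) (hA : An D A) (hS : An p S)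
    (hg : ∀ x ∈ A, c x ∉ S → ∃ (k : ℕ) (h : Fin k → M.X → ℂ) (τ : Fin p → C.X → ℂ), n + k = D ∧
      (∀ j, Hol p (τ j) (c x)) ∧ Ind D (Sum.elim (fun j y => τ j (c y)) h) x ∧
      ∀ᶠ y in 𝓝 x, y ∈ A ↔ ∀ a, h a y = 0) :
    ∃ (V : Mf n) (π : V.X → M.X) (r : ℕ) (G : Fin r → Set V.X), Over n D π A (c ⁻¹' S) ∧
      Snc n G ∧ (∀ y, c (π y) ∈ S ↔ ∃ l, y ∈ G l) ∧
      (∀ y, c (π y) ∉ S → Sbm n p (fun y => c (π y)) y) ∧
      ∀ w : FormM D M.X, IsKahler w → ∃ (k : ℝ) (χ : FormM n V.X), 0 < k ∧ IsKahler χ ∧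
        ∀ (d : ℕ) (Y : Mf d) (i : Y.X → V.X), HolM d n i → (∀ y, c (π (i y)) ∉ S) →
          P301.H599.SameClass (d := d) (pullM i χ)
            fun e z => (k : ℂ) • pullM (fun y => π (i y)) w e z := by
  obtain ⟨I, hI⟩ := P281Z.idl D M _ (hS.pre hc)
  have hM : SubM D n (A \ I.Z) := fun x hx => by
    obtain ⟨k, h, τ, h1, -, h3, h4⟩ := hg x hx.1 (hI ▸ hx.2 :)
    refine ⟨k, h, h1, h3.comp Sum.inr Sum.inr_injective, ?_⟩
    filter_upwards [h4, I.an.closed.isOpen_compl.mem_nhds hx.2] with y a b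
    exact ⟨fun k => a.1 k.1, fun k => ⟨a.2 k, b⟩⟩
  have : CompactSpace (closure (A \ I.Z)) := isCompact_iff_compactSpace.1 isClosed_closure.isCompact
  obtain ⟨o⟩ := P277Z.Hir.stMain _ n univ hn (sp I hA hM (hA.clo I.an)) isCompact_univ
  have hb : ∀ y, c (o.π y).1 ∈ S ↔ ∃ l, y ∈ o.G l := fun y =>
    (Set.ext_iff.1 hI _).symm.trans (o.bad y)
  have hA' : ∀ y, (o.π y).1 ∈ A := fun y => closure_minimal sdiff_subset hA.closed (o.π y).2
  have hπ : HolM n D (X := (mf o).X) fun y => (o.π y).1 := hol o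
  refine ⟨mf o, fun y => (o.π y).1, o.r, o.G,
    hI ▸ ⟨hπ, hA', o.dense, fun y b c => ?_, fun y => imm o⟩,
    snc_lab o.inj o.snc, hb, fun y hy => ?_, fun w hw => ?_⟩
  · obtain ⟨x, hx⟩ := o.surj ⟨y, subset_closure ⟨b, c⟩⟩ (o.sub trivial) c
    exact ⟨x, congrArg Subtype.val hx, fun x' e => o.one x x' (hx ▸ c)
      ((Subtype.ext e).trans hx.symm)⟩
  · obtain ⟨k, h, τ, h1, h2, h3, h4⟩ := hg _ (hA' y) hy
    exact sbm_of hc hπ (imm o fun k => hy ((Set.ext_iff.1 hI _).1 k)) h1 h2 h3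
      ((hπ.cont.continuousAt.eventually h4).mono fun z hz => hz.1 (hA' z))
  · choose ψ hψ using pots hw
    choose U h1 h2 h3 using fun x => eventually_nhds_iff.1 (hψ x)
    obtain ⟨T, O, j, k, u, Φ, a0, a1, a2, a3, a4, a5⟩ := core (V := mf o) hπ (pos o) h2
      (fun x => ⟨x, h3 x⟩) (ψ := ψ)
      (fun i x hx e he => ⟨(h1 i x hx e he).1, (h1 i x hx e he).2 ▸ hw.posDef e x he⟩)
      fun i j x hi hj e he => ⟨(h1 i x hi e he).1.sub (h1 j x hj e he).1, by
        rw [cHess_sub ((h1 i x hi e he).1.of_le two_le_inf) ((h1 j x hj e he).1.of_le two_le_inf),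
          (h1 i x hi e he).2, (h1 j x hj e he).2, sub_self]⟩
    obtain ⟨χ, hχ, hχ'⟩ := kah n (mf o).X T O u a1 a2 (fun a z hz => (a3 a z hz).2) a4
    refine ⟨k, χ, a0, hχ, fun d Y i hi hE => ?_⟩
    have key : ∀ (e : Chart d Y.X) y, At e y →
        ContDiffAt ℝ ∞ (fun z => Φ (i (e.symm z))) (e y) ∧ pullM i χ e (e y) = (k : ℂ) •
          pullM (fun y => (o.π (i y)).1) w e (e y) + cHess (fun z => Φ (i (e.symm z))) (e y) := by
      intro e y he
      obtain ⟨a, ha⟩ := a2 (i y)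
      have c1 := at_chart (n := n) (i y)
      have c2 := at_chart (n := D) (o.π (i y)).1
      have b1 := pull_pot hi he c1 ((a3 a _ ha).2 _ c1).1
      have b2 := pull_pot (hπ.comp hi) he c2 (h1 _ _ (a3 a _ ha).1 _ c2).1
      have b3 := flat_comp hi (a5 a _ ha fun l hl => hE y ((hb _).2 ⟨l, hl⟩)) e he
      have b4 : (fun z => Φ (i (e.symm z))) = fun z => (u a (i (e.symm z)) -
          k * ψ (j a) (o.π (i (e.symm z))).1) - (u a (i (e.symm z)) -
            (k * ψ (j a) (o.π (i (e.symm z))).1 + Φ (i (e.symm z)))) := funext fun z => by ring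
      have b5 := b1.1.sub (contDiffAt_const (c := k).mul b2.1)
      rw [b4]
      refine ⟨b5.sub b3.1, ?_⟩
      rw [cHess_sub (b5.of_le two_le_inf) (b3.1.of_le two_le_inf), b3.2, cHess_sub
        (b1.1.of_le two_le_inf) ((contDiffAt_const.mul b2.1).of_le two_le_inf),
        cHess_const_mul k (b2.1.of_le two_le_inf), b1.2, b2.2, (h1 _ _ (a3 a _ ha).1 _ c2).2,
        ← hχ' a _ _ c1 ha, pullM_eq hχ.isForm (hi y) he c1,
        pullM_eq hw.isForm ((hπ.comp hi) y) he c2]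
      abel
    exact ⟨fun y => Φ (i y), fun e y he => (key e y he).1, fun e y he => (key e y he).2⟩

/-- **RESV** -/
theorem resv : RESV := by
  intro D N M C c A S hc hA hS hg
  obtain ⟨V, π, r, G, h1, h2, h3, h4, h5⟩ := resz M C c A S N.succ_pos hc hA (by
    have := hS.to_subtype
    simpa using An.iUnion fun s : S => an_point (n := 1) s.1) fun x hx hx' => by
      obtain ⟨k, h, τ, a1, a2, a3, a4⟩ := hg x hx hx'
      refine ⟨k, h, fun _ => τ, a1, fun _ => a2, ?_, a4⟩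
      have := a3.comp (Sum.elim (fun _ : Fin 1 => none) some) (by
        rintro (a | a) (b | b) e <;> simp_all [eq_iff_true_of_subsingleton])
      refine (congrArg (Ind D · x) (funext fun l => ?_)).mp this
      cases l <;> rfl
  exact ⟨⟨V, π, h1, r, G, h2, h3, h4, h5⟩⟩

end Vale.Agent.P301Z.Sn
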