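import Vale.Agent.P281Z.Mf.Adj
import Vale.Agent.P301.H599.Stmt
import Vale.Agent.P299.H723.D.Defs

/-!
# P301, block SNC: degenerations with a normal crossing central fibre (definitions, statements)
-/

open scoped Manifold ContDiff Topology ComplexOrder
open Set Filter Metric
open Vale.Agent.P272.K
open Vale.Agent.P277Z (Hol)
open Vale.Agent.P277Z.Slc (LEq Snc Ind)
open Vale.Agent.P281Z
open Vale.Agent.P299.D (FormM pullM jacF)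
open Vale.Agent.P301.H599 (SameClass)

noncomputable section

namespace Vale.Agent.P301Z.Sn

/-- near `x` the set `A` is a manifold of dimension `N + 1` on which `c` is a submersion -/
def Good {D : ℕ} {M : Mf D} {C : Mf 1} (c : M.X → C.X) (A : Set M.X) (N : ℕ) (x : M.X) : Prop :=
  ∃ (k : ℕ) (h : Fin k → M.X → ℂ) (τ : C.X → ℂ), N + 1 + k = D ∧ Hol 1 τ (c x) ∧
    Ind D (fun o : Option (Fin k) => o.elim (fun y => τ (c y)) h) x ∧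
    ∀ᶠ y in 𝓝 x, y ∈ A ↔ ∀ a, h a y = 0

/-- a model of the family `c : A → C`, smooth over `C - S` -/
structure Deg {D : ℕ} (M : Mf D) (C : Mf 1) (c : M.X → C.X) (A : Set M.X) (S : Set C.X)
    (N : ℕ) where
  V : Mf (N + 1)
  π : V.X → M.X
  ovr : Over (N + 1) D π A (c ⁻¹' S)
  r : ℕ
  G : Fin r → Set V.X
  snc : Snc (N + 1) G
  bad : ∀ y, c (π y) ∈ S ↔ ∃ l, y ∈ G l
  sbm : ∀ y, c (π y) ∉ S → Sbm (N + 1) 1 (fun y => c (π y)) y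
  kah : ∀ w : FormM D M.X, IsKahler w → ∃ (k : ℝ) (χ : FormM (N + 1) V.X), 0 < k ∧ IsKahler χ ∧
    ∀ (d : ℕ) (Y : Mf d) (i : Y.X → V.X), HolM d (N + 1) i → (∀ y, c (π (i y)) ∉ S) →
      SameClass (d := d) (pullM i χ) fun e z => (k : ℂ) • pullM (fun y => π (i y)) w e z

/-- **RESV** -/
def RESV : Prop := ∀ (D N : ℕ) (M : Mf D) (C : Mf 1) (c : M.X → C.X) (A : Set M.X) (S : Set C.X),
  HolM D 1 c → An D A → S.Finite → (∀ x ∈ A, c x ∉ S → Good c A N x) →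
    Nonempty (Deg M C c A S N)

/-- **LIFT**: the fibres of `A` are the fibres of the model -/
def LIFT : Prop := ∀ (D N : ℕ) (M : Mf D) (C : Mf 1) (c : M.X → C.X) (A : Set M.X) (S : Set C.X)
  (R : Deg M C c A S N) (t : C.X), t ∉ S → IsClosed S → HolM D 1 c → ∀ (Y : Mf N) (i : Y.X → M.X),
    Emb N D i (A ∩ c ⁻¹' {t}) → ∃ j : Y.X → R.V.X,
      Emb N (N + 1) j ((fun y => c (R.π y)) ⁻¹' {t}) ∧ ∀ y, R.π (j y) = i y

/-- a family near the point `o` of the base: `τ` is a coordinate at `o`, the fibre over `o` is a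
union of components of `G` -/
structure Fam (N : ℕ) : Type 1 where
  V : Mf (N + 1)
  C : Mf 1
  f : V.X → C.X
  hol : HolM (N + 1) 1 f
  r : ℕ
  G : Fin r → Set V.X
  snc : Snc (N + 1) G
  S : Set C.X
  fin : S.Finite
  bad : ∀ y, f y ∈ S ↔ ∃ l, y ∈ G l
  o : C.X
  mem : o ∈ S
  τ : C.X → ℂ
  leq : LEq 1 S o τ

/-- polydisc charts which cover the central fibre -/
structure Cov {N : ℕ} (F : Fam N) where
  A : ℕ
  Θ : Fin A → Chart (N + 1) F.V.X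
  co : ∀ a, Co (N + 1) (Θ a)
  tgt : ∀ a, (Θ a).target = ball 0 3
  c : Fin A → ℝ
  c0 : ∀ a, 0 < c a
  m : Fin A → Fin (N + 1) → ℕ
  mon : ∀ a, ∀ y ∈ (Θ a).source, F.τ (F.f y) = c a * ∏ j, Θ a y j ^ m a j
  U : Set F.C.X
  sub : ∀ a, ∀ y ∈ (Θ a).source, F.f y ∈ U
  mem : F.o ∈ U
  opn : IsOpen U
  inj : InjOn F.τ U
  leq : ∀ t ∈ U, LEq 1 F.S t F.τ
  near : ∀ E ∈ 𝓝 F.o, ∃ δ : ℝ, 0 < δ ∧ ∀ t ∈ U, ‖F.τ t‖ < δ → t ∈ E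
  lab : Fin A → Fin F.r → Option (Fin (N + 1))
  lab_inj : ∀ a l l' j, lab a l = some j → lab a l' = some j → l = l'
  lab_iff : ∀ a j, m a j ≠ 0 ↔ ∃ l, lab a l = some j
  snc : ∀ a l, ∀ y ∈ (Θ a).source, y ∈ F.G l ↔ ∃ j, lab a l = some j ∧ Θ a y j = 0
  ne : ∀ a, ∃ j, m a j ≠ 0
  cover : ∀ᶠ t in 𝓝 F.o, ∀ y, F.f y = t → ∃ a, y ∈ (Θ a).source ∧ Θ a y ∈ ball 0 1

/-- **COV**: there are arbitrarily fine coverings -/
def COV : Prop := ∀ (N : ℕ) (F : Fam N) (O : F.V.X → Set F.V.X), (∀ y, O y ∈ 𝓝 y) →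
  ∃ K : Cov F, ∀ a, ∃ y, (K.Θ a).source ⊆ O y

/-- **RHO**: the functions `- log |s_l|²` -/
def RHO : Prop := ∀ (N : ℕ) (F : Fam N) (K : Cov F), ∃ (ρ : Fin F.r → F.V.X → ℝ)
  (φ : Fin K.A → Fin F.r → Cm (N + 1) → ℝ), (∀ a l, ContDiffOn ℝ ∞ (φ a l) (ball 0 3)) ∧
    (∀ l, ∀ y ∉ F.G l, 1 ≤ ρ l y) ∧ ∀ a l, ∀ y ∈ (K.Θ a).source, y ∉ F.G l →
      ρ l y = φ a l (K.Θ a y) - (K.lab a l).elim 0 fun j => Real.log (‖K.Θ a y j‖ ^ 2)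

/-- the Jacobian matrix of `h : Y → ℂ^k` in the chart `e` -/
def jc {N : ℕ} {Y κ : Type} [TopologicalSpace Y] (h : κ → Y → ℂ) (e : Chart N Y) (y : Y) :
    Matrix κ (Fin N) ℂ := Matrix.of fun a b => dz b (fun z => h a (e.symm z)) (e y)

/-- **POT**: potentials of a Kähler metric on the polydiscs -/
def POT : Prop := ∀ (N : ℕ) (F : Fam N) (χ : FormM (N + 1) F.V.X), IsKahler χ →
  ∃ (K : Cov F) (ψ : Fin K.A → Cm (N + 1) → ℝ), (∀ a, ∀ x ∈ ball (0 : Cm (N + 1)) 3,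
    ContDiffAt ℝ ∞ (ψ a) x ∧ (cHess (ψ a) x).PosDef) ∧
    ∀ a (e : Chart (N + 1) F.V.X) y, At e y → y ∈ (K.Θ a).source →
      χ e (e y) = cHess (fun z => ψ a (K.Θ a (e.symm z))) (e y)

/-- sections of `K ^ q` on the fibres over `W`, which depend holomorphically on the fibre -/
structure Frm {N : ℕ} (F : Fam N) (W : Set F.C.X) (q : ℕ) : Type 1 where
  Y : F.C.X → Mf N
  i : ∀ t, (Y t).X → F.V.X
  emb : ∀ t ∈ W, Emb N (N + 1) (i t) (F.f ⁻¹' {t})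
  u : ∀ t, Chart N (Y t).X → Cm N → ℂ
  rel : ∀ x, F.f x ∈ W → ∃ (h : Fin N → F.V.X → ℂ) (γ : F.V.X → ℂ),
    (∀ a, Hol (N + 1) (h a) x) ∧ Hol (N + 1) γ x ∧ ∀ᶠ x' in 𝓝 x, ∀ t ∈ W, ∀ y, i t y = x' →
      ∀ e, At e y → u t e (e y) = γ x' * (jc (fun a y => h a (i t y)) e y).det ^ q

/-- the product of the `x j`, `j ≠ l`, `m j ≠ 0` -/
def lg {n : ℕ} (m : Fin n → ℕ) (l : Fin n) (x : Cm n) : ℂ :=
  ∏ j ∈ Finset.univ.filter fun j => j ≠ l ∧ m j ≠ 0, x j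

/-- **EXT**: if the volumes grow like a power of `log |t|`, then `u` is the square of a
logarithmic form -/
def EXT : Prop := ∀ (N : ℕ) (F : Fam N) (K : Cov F) (W : Set F.C.X) (Q : Frm F W 2) (B : ℝ) (p : ℕ),
  (∀ᶠ t in 𝓝[≠] F.o, t ∈ W ∧ ∃ I, I ≤ B * |Real.log ‖F.τ t‖| ^ p ∧
    IsIntegral (fun (e : Chart N (Q.Y t).X) z => ‖Q.u t e z‖) I) →
  ∃ B' : ℝ, ∀ᶠ t in 𝓝[≠] F.o, ∀ a (l : Fin (N + 1)), K.m a l ≠ 0 → ∀ y, Q.i t y ∈ (K.Θ a).source →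
    K.Θ a (Q.i t y) ∈ ball 0 2 → ∀ e, At e y →
      ‖Q.u t e (e y)‖ * ‖lg (K.m a) l (K.Θ a (Q.i t y))‖ ^ 2 ≤
        B' * ‖(jc (fun j y => K.Θ a (Q.i t y) (l.succAbove j)) e y).det‖ ^ 2

/-- **EXA**: removable singularities -/
def EXA : Prop := ∀ (n : ℕ) (m : Fin n → ℕ) (g : Cm n → ℂ) (δ B : ℝ) (p : ℕ), 0 < δ →
  (∀ x ∈ ball (0 : Cm n) (5 / 2), ∏ j, x j ^ m j ≠ 0 → ‖∏ j, x j ^ m j‖ < δ →
    AnalyticAt ℂ g x ∧ ‖g x‖ ≤ B * (1 + |Real.log ‖∏ j, x j ^ m j‖|) ^ p) →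
  ∃ δ' B' : ℝ, 0 < δ' ∧ ∀ x ∈ ball (0 : Cm n) 2, ∏ j, x j ^ m j ≠ 0 → ‖∏ j, x j ^ m j‖ < δ' →
    ‖g x‖ ≤ B'

/-- **EXG**: the coefficient of `u` in a chart is holomorphic -/
def EXG : Prop := ∀ (N : ℕ) (F : Fam N) (K : Cov F) (W : Set F.C.X) (q : ℕ) (Q : Frm F W q)
  (a : Fin K.A) (l : Fin (N + 1)), K.m a l ≠ 0 → IsOpen W → Disjoint W F.S →
  ∃ g : Cm (N + 1) → ℂ, (∀ x ∈ (K.Θ a).source, F.f x ∈ W → AnalyticAt ℂ g (K.Θ a x)) ∧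
    ∀ t ∈ W, ∀ y, Q.i t y ∈ (K.Θ a).source → ∀ e, At e y →
      (jc (fun j y => K.Θ a (Q.i t y) (l.succAbove j)) e y).det ≠ 0 ∧
      Q.u t e (e y) * lg (K.m a) l (K.Θ a (Q.i t y)) ^ q = g (K.Θ a (Q.i t y)) *
        (jc (fun j y => K.Θ a (Q.i t y) (l.succAbove j)) e y).det ^ q

/-- **BOX**: the integral of a density over a parametrized piece -/
def BOX : Prop := ∀ (N : ℕ) (Y : Mf N) (D : Chart N Y.X → Cm N → ℝ) (I : ℝ), IsIntegral D I →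
  (∀ e y, At e y → 0 ≤ D e (e y) ∧ ContinuousAt (D e) (e y)) →
  (∀ e e' y, At e y → At e' y → D e (e y) = ‖(jacM e e' y).det‖ ^ 2 * D e' (e' y)) →
  ∀ (U : Set (Cm N)) (E : Cm N → Y.X) (d : Cm N → ℝ), IsOpen U → InjOn E U → ContinuousOn E U →
    (∀ z ∈ U, ∀ e, At e (E z) → AnalyticAt ℂ (fun z => e (E z)) z ∧
      d z = ‖(Matrix.of fun a b => dz b (fun z => e (E z) a) z).det‖ ^ 2 * D e (e (E z))) →
    ∀ L ⊆ U, IsCompact L → ∫ z in L, d z ≤ I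

/-- **EXM**: the mean value inequality on the fibres -/
def EXM : Prop := ∀ (N : ℕ) (F : Fam N) (K : Cov F) (a : Fin K.A) (l : Fin (N + 1)), K.m a l ≠ 0 →
  ∃ B : ℝ, 0 ≤ B ∧ ∀ t ∉ F.S, ∀ (Y : Mf N) (i : Y.X → F.V.X), Emb N (N + 1) i (F.f ⁻¹' {t}) →
    ∀ (u : Chart N Y.X → Cm N → ℂ) (g : Cm (N + 1) → ℂ) (I : ℝ),
      IsIntegral (fun e z => ‖u e z‖) I → (∀ e y, At e y → ContinuousAt (u e) (e y)) →
      (∀ e e' y, At e y → At e' y → u e (e y) = (jacM e e' y).det ^ 2 * u e' (e' y)) →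
      (∀ y, i y ∈ (K.Θ a).source → AnalyticAt ℂ g (K.Θ a (i y)) ∧ ∀ e, At e y →
        u e (e y) * lg (K.m a) l (K.Θ a (i y)) ^ 2 = g (K.Θ a (i y)) *
          (jc (fun j y => K.Θ a (i y) (l.succAbove j)) e y).det ^ 2) →
      ∀ y, i y ∈ (K.Θ a).source → K.Θ a (i y) ∈ ball 0 (5 / 2) → ‖g (K.Θ a (i y))‖ ≤ B * I

/-- **THETA**: `K ^ q` is trivial near a smooth fibre -/
def THETA : Prop := ∀ (N q : ℕ) (V : Mf (N + 1)) (C : Mf 1) (f : V.X → C.X) (o : C.X),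
  ConnectedSpace C.X → HolM (N + 1) 1 f →
  (∀ᶠ t in 𝓝 o, (∀ x, f x = t → Sbm (N + 1) 1 f x) ∧ ∃ (Y : Mf N) (i : Y.X → V.X)
    (u : Chart N Y.X → Y.X → ℂ), Emb N (N + 1) i (f ⁻¹' {t}) ∧ ConnectedSpace Y.X ∧
    (∀ e y, At e y → Hol N (u e) y ∧ u e y ≠ 0) ∧
    ∀ e e' y, At e y → At e' y → u e y = (jacM e e' y).det ^ q * u e' y) →
  ∃ (U : Set C.X) (θ : Chart (N + 1) V.X → V.X → ℂ), IsOpen U ∧ o ∈ U ∧
    (∀ e x, At e x → f x ∈ U → Hol (N + 1) (θ e) x ∧ θ e x ≠ 0) ∧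
    ∀ e e' x, At e x → At e' x → f x ∈ U → θ e x = (jacM e e' x).det ^ q * θ e' x

/-- **RESID**: the residues of a holomorphic section of `K ^ q` depend holomorphically on the
fibre (this is the field `rel` of `Frm`) -/
def RESID : Prop := ∀ (N q : ℕ) (V : Mf (N + 1)) (C : Mf 1) (f : V.X → C.X) (e' : Chart 1 C.X)
  (σ : Fin 1 ⊕ Fin N ≃ Fin (N + 1)) (θ : Chart (N + 1) V.X → V.X → ℂ) (x : V.X),
  HolM (N + 1) 1 f → At e' (f x) → Sbm (N + 1) 1 f x → (∀ e, At e x → Hol (N + 1) (θ e) x) →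
  (∀ᶠ x' in 𝓝 x, ∀ e e₁, At e x' → At e₁ x' → θ e x' = (jacM e e₁ x').det ^ q * θ e₁ x') →
  ∃ (h : Fin N → V.X → ℂ) (γ : V.X → ℂ), (∀ a, Hol (N + 1) (h a) x) ∧ Hol (N + 1) γ x ∧
    ∀ᶠ x' in 𝓝 x, ∀ (Y : Mf N) (i : Y.X → V.X) (t : C.X), Emb N (N + 1) i (f ⁻¹' {t}) →
      ∀ y, i y = x' → ∀ c e, At c y → At e x' →
        θ e x' * th σ f i e' c e y ^ q = γ x' * (jc (fun a y => h a (i y)) c y).det ^ q

end Vale.Agent.P301Z.Sn
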