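import Vale.Agent.P301Z.Sn.Defs
import Vale.Agent.P272.K.INT.Dens

/-!
# P301, block SNC: the integral of a density over a parametrized piece
-/

open scoped Manifold ContDiff Topology ComplexOrder
open Set Filter Metric MeasureTheory
open Vale.Agent.P272.K Vale.Agent.P272.K.INT
open Vale.Agent.P281Z

noncomputable section

namespace Vale.Agent.P301Z.Sn

theorem box : BOX := by
  intro N Y D I hI h0 hch U E d hU hinj hE hd L hLU hL
  have hD : IsDensity D := ⟨fun e y h => (h0 e y h).2, fun e e' y h h' => by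
    rw [hch e e' y h h', mul_comm]⟩
  have hdet : ∀ z ∈ U, ∀ e, At e (E z) →
      d z = (fderiv ℝ (fun z => e (E z)) z).det * D e (e (E z)) := fun z hz e he => by
    rw [det_fderiv_real (hd z hz e he).1.differentiableAt]
    exact (hd z hz e he).2
  have hc : ContinuousOn d U := by
    intro z hz
    have he : At (chartAt (Cm N) (E z)) (E z) := ⟨chart_mem_atlas _ _, mem_chart_source _ _⟩
    generalize chartAt (Cm N) (E z) = e at he
    have h1 : ContDiffAt ℝ 1 (fun z => e (E z)) z :=
      (hd z hz e he).1.contDiffAt.restrict_scalars ℝ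
    have h2 : ContinuousAt (fun w => (fderiv ℝ (fun z => e (E z)) w).det * D e (e (E w))) z :=
      (ContinuousLinearMap.continuous_det.continuousAt.comp
        (h1.continuousAt_fderiv one_ne_zero)).mul
        (ContinuousAt.comp (f := fun z => e (E z)) (h0 e _ he).2 h1.continuousAt)
    refine (h2.congr ?_).continuousWithinAt
    filter_upwards [hU.mem_nhds hz, (hE.continuousAt (hU.mem_nhds hz)).preimage_mem_nhds
      (e.open_source.mem_nhds he.2)] with w h3 h4
    exact (hdet w h3 e ⟨he.1, h4⟩).symm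
  obtain ⟨P⟩ := exists_part N Y.X
  rw [← hI _ _ _ P.mem P.cont P.supp P.sum]
  have e1 : ∫ z in L, d z = ∑ i, ∫ z in L, P.ρ i (E z) * d z := by
    rw [← integral_finsetSum]
    · simp only [← Finset.sum_mul, P.sum, one_mul]
    · intro i _
      exact ((((P.cont i).comp_continuousOn hE).mul hc).mono hLU).integrableOn_compact hL
  rw [e1]
  refine Finset.sum_le_sum fun i _ => ?_
  have hm : MeasurableSet (L ∩ E ⁻¹' tsupport (P.ρ i)) :=
    ((hE.mono hLU).preimage_isClosed_of_isClosed hL.isClosed (isClosed_tsupport _)).measurableSet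
  have hat : ∀ z ∈ L ∩ E ⁻¹' tsupport (P.ρ i), At (P.e i) (E z) := fun z hz =>
    ⟨P.mem i, P.supp i hz.2⟩
  have e2 : ∫ z in L, P.ρ i (E z) * d z =
      ∫ z in L ∩ E ⁻¹' tsupport (P.ρ i), P.ρ i (E z) * d z := by
    refine setIntegral_eq_of_subset_of_forall_sdiff_eq_zero hL.measurableSet inter_subset_left
      fun z hz => ?_
    rw [image_eq_zero_of_notMem_tsupport (fun h => hz.2 ⟨hz.1, h⟩), zero_mul]
  have e3 := integral_image_eq_integral_abs_det_fderiv_smul volume hm
    (f := fun z => P.e i (E z)) (f' := fun z => fderiv ℝ (fun z => P.e i (E z)) z)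
    (fun z hz => (((hd z (hLU hz.1) _ (hat z hz)).1.differentiableAt.restrictScalars
      ℝ).hasFDerivAt).hasFDerivWithinAt)
    (fun z hz z' hz' h => hinj (hLU hz.1) (hLU hz'.1)
      ((P.e i).injOn (hat z hz).2 (hat z' hz').2 h))
    (fun w => P.ρ i ((P.e i).symm w) * D (P.e i) w)
  have e4 : ∫ z in L ∩ E ⁻¹' tsupport (P.ρ i), P.ρ i (E z) * d z =
      ∫ w in (fun z => P.e i (E z)) '' (L ∩ E ⁻¹' tsupport (P.ρ i)),
        P.ρ i ((P.e i).symm w) * D (P.e i) w := by
    rw [e3]
    refine setIntegral_congr_fun hm fun z hz => ?_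
    have h1 := det_fderiv_real (hd z (hLU hz.1) _ (hat z hz)).1.differentiableAt
    simp only [smul_eq_mul]
    rw [(P.e i).left_inv (hat z hz).2, hdet z (hLU hz.1) _ (hat z hz),
      abs_of_nonneg (h1 ▸ by positivity)]
    ring
  rw [e2, e4]
  refine setIntegral_mono_set (integrableOn_part P hD i) ?_ (LE.le.eventuallyLE ?_)
  · filter_upwards [ae_restrict_mem (P.e i).open_target.measurableSet] with w hw
    have h1 := (h0 (P.e i) _ ⟨P.mem i, (P.e i).map_target hw⟩).1
    rw [(P.e i).right_inv hw] at h1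
    exact mul_nonneg (P.nonneg i _) h1
  · rintro _ ⟨z, hz, rfl⟩
    exact (P.e i).map_source (hat z hz).2

end Vale.Agent.P301Z.Sn
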