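import Vale.Agent.P301Z.Sn.Defs
import Vale.Agent.P281Z.Nt.Hyp
import Vale.Agent.P281Z.Rs.Kahr
import Vale.Agent.P281Z.Mf.Adapt

/-!
# P301, block SNC: polydisc charts along the central fibre
-/

open scoped Manifold ContDiff Topology ComplexOrder
open Set Filter Metric Function
open Vale.Agent.P272.K
open Vale.Agent.P277Z (Hol at_chart)
open Vale.Agent.P277Z.Slc (LEq Snc Ind dd dd_mul)
open Vale.Agent.P281Z
open Vale.Agent.P281Z.Rs.Cmp
open Vale.Agent.P281Z.Nt.Hp (exists_crd)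
open Vale.Agent.P284Z (levi cHess_quad)

set_option linter.unusedSectionVars false

noncomputable section

namespace Vale.Agent.P301Z.Sn

namespace CovP

variable {n : ℕ} {X : Type} [TopologicalSpace X] [ChartedSpace (Cm n) X]
  [IsManifold 𝓘(ℂ, Cm n) ω X] {x : X}

theorem scale {Θ : Chart n X} (h : Co n Θ) (hx : x ∈ Θ.source) (h0 : Θ x = 0) :
    ∃ (Θ' : Chart n X) (ε : ℝ), 0 < ε ∧ Co n Θ' ∧ x ∈ Θ'.source ∧ Θ'.source ⊆ Θ.source ∧
      Θ'.target = ball 0 3 ∧ ∀ y j, Θ y j = ε * Θ' y j := by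
  obtain ⟨δ, h1, h2⟩ := Metric.isOpen_iff.1 Θ.open_target _ (Θ.map_source hx)
  have h3 : ((δ / 3 : ℝ) : ℂ) ≠ 0 := Complex.ofReal_ne_zero.2 (by positivity)
  let T : Cm n ≃L[ℂ] Cm n :=
    (LinearEquiv.smulOfNeZero ℂ (Cm n) _ h3).symm.toContinuousLinearEquiv
  have hT : ∀ v, T.symm v = ((δ / 3 : ℝ) : ℂ) • v := fun _ => rfl
  have k := h.trans T
  refine ⟨((Θ.transHomeomorph T.toHomeomorph).symm.restrOpen (ball 0 3) isOpen_ball).symm, δ / 3,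
    by positivity, ⟨fun y hy => k.an y hy.1, fun v hv => k.inv v hv.1⟩, ⟨hx, ?_⟩, fun y hy => hy.1,
    ?_, fun y j => ?_⟩
  · change T (Θ x) ∈ ball (0 : Cm n) 3
    simp [h0]
  · refine inter_eq_right.2 fun v hv => h2 ?_
    change T.symm v ∈ _
    rw [h0, hT, mem_ball_zero_iff, norm_smul, Complex.norm_real, Real.norm_of_nonneg (by positivity)]
    have := mem_ball_zero_iff.1 hv
    nlinarith
  · change Θ y j = (T.symm (T (Θ y))) j
    rw [T.symm_apply_apply]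

theorem root {u : X → ℂ} (hu : Hol n u x) (h0 : u x ≠ 0) {a : ℕ} (ha : 0 < a) :
    ∃ v : X → ℂ, Hol n v x ∧ v x ≠ 0 ∧ ∀ᶠ y in 𝓝 x, v y ^ a = u y := by
  obtain ⟨b, hb⟩ := IsAlgClosed.exists_pow_nat_eq (u x) ha
  have h1 : b ≠ 0 := by
    rintro rfl
    exact h0 (hb ▸ zero_pow ha.ne')
  refine ⟨fun y => b * Complex.exp (Complex.log (u y / u x) / a), fun e he => ?_,
    mul_ne_zero h1 (Complex.exp_ne_zero _), ?_⟩
  · refine analyticAt_const.mul (AnalyticAt.cexp' (AnalyticAt.fun_div (AnalyticAt.clog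
      ((hu e he).fun_div analyticAt_const h0) ?_) analyticAt_const (Nat.cast_ne_zero.2 ha.ne')))
    simp [he.left_inv, h0]
  · filter_upwards [hu.continuousAt.eventually_ne h0] with y hy
    rw [mul_pow, ← Complex.exp_nat_mul, mul_div_cancel₀ _ (Nat.cast_ne_zero.2 ha.ne'),
      Complex.exp_log (div_ne_zero hy h0), hb, mul_div_cancel₀ _ h0]

theorem mono {α : Type} [Fintype α] {ζ : α → X → ℂ} (hi : Ind n ζ x) (h0 : ∀ a, ζ a x = 0)
    {u : X → ℂ} (hu : Hol n u x) (hu0 : u x ≠ 0) {m : α → ℕ} {a₀ : α} (ha : 0 < m a₀) :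
    ∃ ξ : α → X → ℂ, Ind n ξ x ∧ ∀ᶠ y in 𝓝 x, (∀ a, ξ a y = 0 ↔ ζ a y = 0) ∧
      u y * ∏ a, ζ a y ^ m a = ∏ a, ξ a y ^ m a := by
  classical
  obtain ⟨v, h1, h2, h3⟩ := root hu hu0 ha
  let w : α → X → ℂ := fun a y => if a = a₀ then v y else 1
  have k1 : ∀ a, Hol n (w a) x := fun a => by
    by_cases h : a = a₀
    · simpa only [w, if_pos h] using h1
    · simpa only [w, if_neg h] using hol_one
  have k2 : ∀ y, v y ≠ 0 → ∀ a, w a y ≠ 0 := fun y hy a => by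
    by_cases h : a = a₀ <;> simp [w, h, hy]
  refine ⟨fun a y => w a y * ζ a y, ⟨fun a => hol_mul (k1 a) (hi.1 a), fun e he => ?_⟩, ?_⟩
  · simp only [fun a => dd_mul (k1 a) (hi.1 a) (h0 a) he]
    exact (hi.2 e he).units_smul fun a => Units.mk0 _ (k2 x h2 a)
  · filter_upwards [h3, h1.continuousAt.eventually_ne h2] with y a1 a2
    refine ⟨fun a => by simp [k2 y a2 a], ?_⟩
    simp only [mul_pow, Finset.prod_mul_distrib]
    congr 1
    rw [Finset.prod_eq_single a₀ (fun b _ hb => by simp [w, hb]) (by simp), ← a1]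
    simp [w]

variable {N : ℕ} (F : Fam N)

/-- one chart -/
structure One (U : Set F.C.X) (O : Set F.V.X) (y₀ : F.V.X) where
  Θ : Chart (N + 1) F.V.X
  co : Co (N + 1) Θ
  tgt : Θ.target = ball 0 3
  c : ℝ
  c0 : 0 < c
  m : Fin (N + 1) → ℕ
  mon : ∀ y ∈ Θ.source, F.τ (F.f y) = c * ∏ j, Θ y j ^ m j
  sub : ∀ y ∈ Θ.source, F.f y ∈ U
  lab : Fin F.r → Option (Fin (N + 1))
  lab_inj : ∀ l l' j, lab l = some j → lab l' = some j → l = l'
  lab_iff : ∀ j, m j ≠ 0 ↔ ∃ l, lab l = some j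
  snc : ∀ l, ∀ y ∈ Θ.source, y ∈ F.G l ↔ ∃ j, lab l = some j ∧ Θ y j = 0
  ne : ∃ j, m j ≠ 0
  mem : y₀ ∈ Θ.source
  zero : Θ y₀ = 0
  small : Θ.source ⊆ O

theorem one {U : Set F.C.X} (hU : U ∈ 𝓝 F.o) {y₀ : F.V.X} (hy : F.f y₀ = F.o) {O : Set F.V.X}
    (hO : O ∈ 𝓝 y₀) : Nonempty (One F U O y₀) := by
  classical
  obtain ⟨ζ, z1, z2⟩ := F.snc y₀
  have t : Tendsto F.f (𝓝 y₀) (𝓝 F.o) := hy ▸ F.hol.cont.continuousAt
  have b0 : ∀ᶠ y in 𝓝 y₀, F.τ (F.f y) = 0 ↔ ∃ l, y ∈ F.G l :=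
    (t.eventually F.leq.1).mono fun y h => h.trans (F.bad y)
  obtain ⟨a, u, u1, u2, u3⟩ := Nt.Hp.mon (b := fun y => F.τ (F.f y)) F.snc z1
    (F.hol.hol (hy ▸ F.leq.hol)) (b0.mono fun y h k c => let ⟨l, d⟩ := h.1 c; k l d)
  obtain ⟨u', v1, v2, v3⟩ := Eqv.trans ⟨u, u1, u2, u3⟩ (eqv_sub z1 a)
  have z0 : ∀ l : {l // y₀ ∈ F.G l}, ζ l y₀ = 0 := fun l => (z1 l).mem.2 l.2
  have ap : ∀ l : {l // y₀ ∈ F.G l}, 0 < a l := fun l =>
    mon_pos z2 z0 (f := fun (_ : Unit) y => F.τ (F.f y)) (e := fun l => a l)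
      ⟨fun _ => u', fun _ => v1, ⟨(), v2⟩, v3.mono fun _ h _ => h⟩ l (by
        filter_upwards [b0, (z1 l).1] with y h1 h2 h3 _ using h1.2 ⟨l, h2.1 h3⟩)
  obtain ⟨l₀, hl₀⟩ := (F.bad y₀).1 (hy ▸ F.mem)
  obtain ⟨ξ, x1, x2⟩ := mono z2 z0 v1 v2 (m := fun l => a l) (ap ⟨l₀, hl₀⟩)
  have e1 : ∀ᶠ y in 𝓝 y₀, ∀ l, (ζ l y = 0 ↔ y ∈ F.G l) ∧ (y₀ ∉ F.G l → y ∉ F.G l) :=
    eventually_all.2 fun k => (z1 k).1.and (by
      by_cases hk : y₀ ∈ F.G k
      · exact .of_forall fun _ h => absurd hk h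
      · exact ((z1 k).not_mem_near hk).mono fun _ h _ => h)
  obtain ⟨Θ, ι, c1, c2, c3, c4, c5⟩ := exists_crd x1 (fun l => (x2.self_of_nhds.1 l).2 (z0 l))
    (((((v3.and x2).and e1).and (t hU)).and hO))
  obtain ⟨Θ', ε, d0, d1, d2, d3, d4, d5⟩ := scale c1 c2 c4
  have ε0 : (ε : ℂ) ≠ 0 := Complex.ofReal_ne_zero.2 d0.ne'
  let m : Fin (N + 1) → ℕ := extend ι (fun l => a l) 0
  have m1 : ∀ l, m (ι l) = a l := fun l => ι.injective.extend_apply _ _ l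
  have m2 : ∀ j, (¬ ∃ l, ι l = j) → m j = 0 := fun j h => extend_apply' _ _ _ h
  have m3 : ∀ g : Fin (N + 1) → ℂ, ∏ j, g j ^ m j = ∏ l, g (ι l) ^ a l := fun g => by
    refine (Finset.prod_of_injOn ι ι.injective.injOn (fun _ _ => Finset.mem_univ _)
      (fun j _ h => ?_) fun l _ => by rw [m1]).symm
    rw [m2 j fun ⟨l, k⟩ => h ⟨l, Finset.mem_univ _, k⟩, pow_zero]
  refine ⟨⟨Θ', d1, d4, ε ^ ∑ j, m j, by positivity, m, fun y h => ?_, fun y h => (c3 (d3 h)).1.2,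
    fun l => if h : y₀ ∈ F.G l then some (ι ⟨l, h⟩) else none, fun l l' j p q => ?_, fun j => ?_,
    fun l y h => ?_, ⟨ι ⟨l₀, hl₀⟩, (m1 _).symm ▸ (ap _).ne'⟩, d2, funext fun j => ?_,
    fun y h => (c3 (d3 h)).2⟩⟩
  · obtain ⟨⟨⟨⟨p, q⟩, -⟩, -⟩, -⟩ := c3 (d3 h)
    refine (p.trans q.2).trans ?_
    rw [Complex.ofReal_pow, ← Finset.prod_pow_eq_pow_sum, ← Finset.prod_mul_distrib]
    simp only [← mul_pow, ← d5, m3, c5 y (d3 h)]
  · split_ifs at p q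
    exact congrArg Subtype.val (ι.injective (Option.some.inj (p.trans q.symm)))
  · refine ⟨fun h => ?_, fun ⟨l, h⟩ => ?_⟩
    · obtain ⟨l, rfl⟩ := not_not.1 (mt (m2 j) h)
      exact ⟨l, dif_pos l.2⟩
    · split_ifs at h with k
      exact Option.some.inj h ▸ (m1 _).symm ▸ (ap _).ne'
  · obtain ⟨⟨⟨⟨-, q⟩, p⟩, -⟩, -⟩ := c3 (d3 h)
    by_cases k : y₀ ∈ F.G l
    · rw [dif_pos k, ← (p l).1, ← q.1 ⟨l, k⟩, ← c5 y (d3 h), d5, mul_eq_zero, or_iff_right ε0]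
      exact ⟨fun s => ⟨_, rfl, s⟩, fun ⟨i, s, s'⟩ => Option.some.inj s ▸ s'⟩
    · rw [dif_neg k]
      exact iff_of_false ((p l).2 k) fun ⟨_, s, _⟩ => by simp at s
  · have := d5 y₀ j
    rw [c4] at this
    exact (mul_eq_zero.1 this.symm).resolve_left ε0

end CovP

open CovP in
theorem cov : COV := by
  intro N F O hO
  classical
  have hi : Ind 1 (fun _ : Unit => F.τ) F.o := ⟨fun _ => F.leq.hol, fun e he =>
    linearIndependent_unique_iff.2 ((F.leq.2 e he).2 (F.leq.mem.2 F.mem))⟩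
  obtain ⟨T, ι, c1, c2, c3, c4, c5⟩ := exists_crd hi (fun _ => F.leq.mem.2 F.mem) F.leq.near
  have hT : ∀ t ∈ T.source, T t = fun _ => F.τ t := fun t ht => funext fun j => by
    rw [Subsingleton.elim j (ι ()), c5 t ht]
  have k := fun y : F.f ⁻¹' {F.o} => (one F (T.open_source.mem_nhds c2) y.2 (hO y)).some
  have hc : IsCompact (F.f ⁻¹' {F.o}) := (isClosed_singleton.preimage F.hol.cont).isCompact
  let W : F.f ⁻¹' {F.o} → Set F.V.X := fun y => (k y).Θ.source ∩ (k y).Θ ⁻¹' ball 0 1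
  have hW : ∀ y, IsOpen (W y) := fun y => (k y).Θ.isOpen_inter_preimage isOpen_ball
  obtain ⟨s, hs⟩ := hc.elim_finite_subcover W hW fun y hy =>
    mem_iUnion.2 ⟨⟨y, hy⟩, (k _).mem, by simp [(k ⟨y, hy⟩).zero]⟩
  let σ : Fin s.card → F.f ⁻¹' {F.o} := fun a => s.equivFin.symm a
  refine ⟨⟨s.card, fun a => (k (σ a)).Θ, fun a => (k _).co, fun a => (k _).tgt, fun a => (k (σ a)).c,
    fun a => (k _).c0, fun a => (k (σ a)).m, fun a => (k _).mon, T.source, fun a => (k _).sub, c2,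
    T.open_source, fun t ht t' ht' h => T.injOn ht ht' (by rw [hT t ht, hT t' ht', h]), c3,
    fun E hE => ?_, fun a => (k (σ a)).lab, fun a => (k _).lab_inj, fun a => (k _).lab_iff,
    fun a => (k _).snc, fun a => (k _).ne, ?_⟩, fun a => ⟨_, (k _).small⟩⟩
  · obtain ⟨δ, h1, h2⟩ := Metric.eventually_nhds_iff_ball.1 (T.tendsto_symm c2 hE)
    refine ⟨δ, h1, fun t ht h => T.left_inv ht ▸ h2 (T t) ?_⟩
    rw [c4, hT t ht, mem_ball_zero_iff]
    exact (pi_norm_lt_iff h1).2 fun _ => h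
  · have h1 : IsClosed (F.f '' (⋃ y ∈ s, W y)ᶜ) := ((isOpen_biUnion fun y _ =>
      hW y).isClosed_compl.isCompact.image F.hol.cont).isClosed
    filter_upwards [h1.isOpen_compl.mem_nhds fun ⟨y, a, b⟩ => a (hs b)] with t ht y hy
    obtain ⟨z, a, b⟩ := mem_iUnion₂.1 (not_not.1 fun a : y ∉ ⋃ y ∈ s, W y => ht ⟨y, a, hy⟩)
    refine ⟨s.equivFin ⟨z, a⟩, ?_⟩
    change y ∈ W (s.equivFin.symm (s.equivFin ⟨z, a⟩))
    rwa [Equiv.symm_apply_apply]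

theorem pot_of (h : COV) : POT := by
  intro N F χ hχ
  choose ψ hψ using Rs.Kahr.pots hχ
  obtain ⟨K, hK⟩ := h N F _ hψ
  choose p hp using hK
  refine ⟨K, fun a v => ψ (p a) ((K.Θ a).symm v), fun a v hv => ?_, fun a e y he hy => ?_⟩
  · rw [← K.tgt a] at hv
    have he := at_chart (n := N + 1) ((K.Θ a).symm v)
    set e := chartAt (Cm (N + 1)) ((K.Θ a).symm v)
    obtain ⟨h1, h2⟩ := hp a ((K.Θ a).map_target hv) e he
    have h3 := (K.co a).inv v hv e he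
    have h4 : (fun v => ψ (p a) ((K.Θ a).symm v)) =ᶠ[𝓝 v]
        fun v => (fun z => ψ (p a) (e.symm z)) (e ((K.Θ a).symm v)) :=
      (((K.Θ a).continuousAt_symm hv).eventually (e.eventually_left_inverse he.2)).mono
        fun z hz => by simp only [hz]
    have h5 : ContDiffAt ℝ ∞ (fun v => ψ (p a) ((K.Θ a).symm v)) v :=
      (ContDiffAt.comp (f := fun v => e ((K.Θ a).symm v)) v h1
        (h3.restrictScalars (𝕜 := ℝ)).contDiffAt).congr_of_eventuallyEq h4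
    have h6 := P284Y.Lib.two_le_inf
    refine ⟨h5, .of_dotProduct_mulVec_pos (C2.cHess_isHermitian (h5.of_le h6)) fun w hw => ?_⟩
    rw [cHess_quad (h5.of_le h6), Complex.zero_lt_real, P284Y.Lib.levi_congr h4,
      P284Y.Lib.levi_hol h3 (h1.of_le h6)]
    refine div_pos (P277Z.Hl.PosbH.levi_pos (h1.of_le h6) (h2 ▸ hχ.posDef e _ he) fun c => ?_)
      (by norm_num)
    exact star_ne_zero.2 hw ((K.co a).inj hv he (c.trans (map_zero _).symm))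
  · rw [← (hp a hy e he).2]
    refine C2.cHess_congr (((P277Z.Slc.tendsto_symm he).eventually
      ((K.Θ a).eventually_left_inverse hy)).mono fun z hz => ?_)
    simp only [hz]

end Vale.Agent.P301Z.Sn
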