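import Vale.Agent.P272.K.Stmt
import Mathlib.Analysis.Complex.RemovableSingularity
import Mathlib.Analysis.Complex.AbsMax
import Mathlib.Analysis.Calculus.Deriv.Pi
import Mathlib.Analysis.SpecialFunctions.Pow.Continuity

/-!
# P301Z, block SNC: functions with small poles along the coordinate hyperplanes are bounded
-/

open scoped Topology
open Set Filter Metric
open Vale.Agent.P272.K (Cm)

namespace Vale.Agent.P301Z.Sn.Rm

theorem one {h : ℂ → ℂ} {ρ A a : ℝ} (hρ : 0 < ρ) (ha : a < 1)
    (hd : ∀ z, z ≠ 0 → ‖z‖ ≤ ρ → DifferentiableAt ℂ h z)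
    (hb : ∀ z, z ≠ 0 → ‖z‖ ≤ ρ → ‖h z‖ ≤ A * ‖z‖ ^ (-a)) {z : ℂ} (hz : z ≠ 0) (hz' : ‖z‖ ≤ ρ) :
    ‖h z‖ ≤ A * ρ ^ (-a) := by
  have h1 : (fun z => h z - h 0) =o[𝓝[≠] 0] fun z : ℂ => (z - 0)⁻¹ := by
    refine Asymptotics.isLittleO_of_tendsto' (eventually_mem_nhdsWithin.mono fun z k k' =>
      absurd (by simpa using k') k) (squeeze_zero_norm' (a := fun z : ℂ =>
        A * ‖z‖ ^ (1 - a) + ‖h 0‖ * ‖z‖) ?_ (Tendsto.mono_left ?_ nhdsWithin_le_nhds))
    · filter_upwards [self_mem_nhdsWithin,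
        mem_nhdsWithin_of_mem_nhds (closedBall_mem_nhds (0 : ℂ) hρ)] with z k k'
      have k0 : 0 < ‖z‖ := norm_pos_iff.2 k
      rw [sub_zero, div_inv_eq_mul, norm_mul, sub_eq_add_neg (1 : ℝ), Real.rpow_add k0,
        Real.rpow_one]
      have := (norm_sub_le _ _).trans (add_le_add_left (hb z k (mem_closedBall_zero_iff.1 k')) ‖h 0‖)
      nlinarith
    · have c : Continuous fun z : ℂ => A * ‖z‖ ^ (1 - a) + ‖h 0‖ * ‖z‖ :=
        (continuous_const.mul (continuous_norm.rpow_const fun _ => Or.inr (by linarith))).add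
          (continuous_const.mul continuous_norm)
      simpa [Real.zero_rpow (sub_pos.2 ha).ne'] using c.tendsto 0
  have h2 := Complex.differentiableOn_update_limUnder_of_isLittleO (closedBall_mem_nhds (0 : ℂ) hρ)
    (fun z k => (hd z k.2 (mem_closedBall_zero_iff.1 k.1)).differentiableWithinAt) h1
  rw [← closure_ball _ hρ.ne'] at h2
  have h3 := Complex.norm_le_of_forall_mem_frontier_norm_le isBounded_ball h2.diffContOnCl
    (C := A * ρ ^ (-a)) (z := z) (fun w k => by
      rw [frontier_ball _ hρ.ne', mem_sphere_zero_iff_norm] at k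
      have k0 : w ≠ 0 := norm_pos_iff.1 (k ▸ hρ)
      rw [Function.update_of_ne k0, ← k]
      exact hb w k0 k.le)
    (by rw [closure_ball _ hρ.ne']; exact mem_closedBall_zero_iff.2 hz')
  rwa [Function.update_of_ne hz] at h3

/-- A holomorphic function on the polydisc minus coordinate hyperplanes with poles of order less
than one is bounded. -/
theorem riem {D : ℕ} {a : Fin D → ℝ} {g : Cm D → ℂ} {ρ A : ℝ} (hρ : 0 < ρ) (ha : ∀ l, a l < 1)
    (hd : ∀ x ∈ closedBall (0 : Cm D) ρ, (∀ l, a l ≠ 0 → x l ≠ 0) → DifferentiableAt ℂ g x)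
    (hb : ∀ x ∈ closedBall (0 : Cm D) ρ, (∀ l, a l ≠ 0 → x l ≠ 0) →
      ‖g x‖ ≤ A * ∏ l, ‖x l‖ ^ (-a l)) :
    ∀ x ∈ closedBall (0 : Cm D) ρ, (∀ l, a l ≠ 0 → x l ≠ 0) → ‖g x‖ ≤ A * ∏ l, ρ ^ (-a l) := by
  classical
  have key : ∀ S : Finset (Fin D), ∀ x ∈ closedBall (0 : Cm D) ρ, (∀ l, a l ≠ 0 → x l ≠ 0) →
      ‖g x‖ ≤ A * ∏ l, (if l ∈ S then ρ else ‖x l‖) ^ (-a l) := by
    intro S
    induction S using Finset.induction_on with
    | empty => simpa using hb
    | insert k S hk ih =>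
      intro x hx hx'
      have e : ∀ (y : Cm D) (S' : Finset (Fin D)), A * ∏ l, (if l ∈ S' then ρ else ‖y l‖) ^ (-a l) =
          (A * ∏ l ∈ Finset.univ.erase k, (if l ∈ S' then ρ else ‖y l‖) ^ (-a l)) *
            (if k ∈ S' then ρ else ‖y k‖) ^ (-a k) := fun y S' => by
        rw [mul_assoc, Finset.prod_erase_mul _ _ (Finset.mem_univ k)]
      have e' : ∀ z : ℂ, ∏ l ∈ Finset.univ.erase k,
          (if l ∈ S then ρ else ‖Function.update x k z l‖) ^ (-a l) =
          ∏ l ∈ Finset.univ.erase k, (if l ∈ insert k S then ρ else ‖x l‖) ^ (-a l) := fun z =>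
        Finset.prod_congr rfl fun l hl => by
          simp [Finset.ne_of_mem_erase hl]
      rw [e, if_pos (Finset.mem_insert_self k S)]
      by_cases h0 : a k = 0
      · have := ih x hx hx'
        rw [e, ← Function.update_eq_self k x, e', Function.update_eq_self] at this
        simpa [h0] using this
      have m1 : ∀ z : ℂ, ‖z‖ ≤ ρ → Function.update x k z ∈ closedBall (0 : Cm D) ρ := fun z hz => by
        rw [mem_closedBall_zero_iff, pi_norm_le_iff_of_nonneg hρ.le] at hx ⊢
        intro l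
        rcases eq_or_ne l k with rfl | hl
        · simpa using hz
        · simpa [hl] using hx l
      have m2 : ∀ z : ℂ, z ≠ 0 → ∀ l, a l ≠ 0 → Function.update x k z l ≠ 0 := fun z hz l hl => by
        rcases eq_or_ne l k with rfl | h
        · simpa using hz
        · simpa [h] using hx' l hl
      have := one (h := fun z => g (Function.update x k z)) hρ (ha k)
        (fun z p q => (hd _ (m1 z q) (m2 z p)).comp z (hasDerivAt_update x k z).differentiableAt)
        (fun z p q => by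
          have := ih _ (m1 z q) (m2 z p)
          rwa [e, e', if_neg hk, Function.update_self] at this) (hx' k h0)
        ((norm_le_pi_norm x k).trans (mem_closedBall_zero_iff.1 hx))
      simpa using this
  simpa using key Finset.univ

end Vale.Agent.P301Z.Sn.Rm
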