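import Vale.Agent.P301Z.Sn.Defs
import Vale.Agent.P301Z.Sn.Riem

/-!
# P301, block SNC: logarithmic growth along a monomial divisor implies boundedness
-/

open scoped Topology
open Set Filter Metric
open Vale.Agent.P272.K

namespace Vale.Agent.P301Z.Sn

namespace Xa

theorem log_le {s η : ℝ} (h0 : 0 < s) (h1 : s < 1) (hη : 0 < η) :
    1 + |Real.log s| ≤ (1 + η⁻¹) * s ^ (-η) := by
  have k1 : 1 ≤ s ^ (-η) := Real.one_le_rpow_of_pos_of_le_one_of_nonpos h0 h1.le (by linarith)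
  have k2 := Real.log_le_rpow_div (inv_pos.2 h0).le hη
  rw [Real.log_inv, Real.inv_rpow h0.le, ← Real.rpow_neg h0.le] at k2
  rw [abs_of_neg (Real.log_neg h0 h1), add_mul, one_mul, ← div_eq_inv_mul]
  linarith

theorem loc {n : ℕ} {m : Fin n → ℕ} {g : Cm n → ℂ} {δ B : ℝ} {p : ℕ} (hδ : 0 < δ)
    (h : ∀ x ∈ ball (0 : Cm n) (5 / 2), ∏ j, x j ^ m j ≠ 0 → ‖∏ j, x j ^ m j‖ < δ →
      AnalyticAt ℂ g x ∧ ‖g x‖ ≤ B * (1 + |Real.log ‖∏ j, x j ^ m j‖|) ^ p)
    {o : Cm n} (ho : o ∈ closedBall (0 : Cm n) 2) (h0 : ∏ j, o j ^ m j = 0) :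
    ∃ B' : ℝ, ∀ᶠ x in 𝓝 o, ∏ j, x j ^ m j ≠ 0 → ‖g x‖ ≤ B' := by
  classical
  have hc : Continuous fun x : Cm n => ‖∏ j, x j ^ m j‖ := by fun_prop
  have e1 : ∀ᶠ x in 𝓝 o, x ∈ ball (0 : Cm n) (5 / 2) :=
    isOpen_ball.mem_nhds (closedBall_subset_ball (by norm_num) ho)
  have e2 : ∀ᶠ x in 𝓝 o, ‖∏ j, x j ^ m j‖ < min δ 1 :=
    hc.continuousAt.eventually_lt continuousAt_const (by simp [h0, hδ])
  have e3 : ∀ᶠ x in 𝓝 o, ∀ j, o j ≠ 0 → ‖o j‖ / 2 < ‖x j‖ := eventually_all.2 fun j => by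
    by_cases k : o j = 0
    · simp [k]
    · have : Continuous fun x : Cm n => ‖x j‖ := by fun_prop
      exact (continuousAt_const.eventually_lt this.continuousAt
        (half_lt_self (norm_pos_iff.2 k))).mono fun _ k' _ => k'
  obtain ⟨ρ, hρ, e4⟩ := nhds_basis_closedBall.eventually_iff.1 (e1.and (e2.and e3))
  set η : ℝ := (1 + (p + 1) * ∑ j, (m j : ℝ))⁻¹ with hη
  have s0 : 0 ≤ ∑ j, (m j : ℝ) := by positivity
  have η0 : 0 < η := by positivity
  set b : Fin n → ℝ := fun j => η * ((p + 1) * m j) with hb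
  have b0 : ∀ j, 0 ≤ b j := fun j => by positivity
  set a : Fin n → ℝ := fun j => if o j = 0 then b j else 0 with ha
  have hm : ∀ x ∈ closedBall (0 : Cm n) ρ, o + x ∈ closedBall o ρ := fun x hx => by simpa using hx
  have hp : ∀ x ∈ closedBall (0 : Cm n) ρ, (∀ l, a l ≠ 0 → x l ≠ 0) → ∀ j, m j ≠ 0 →
      (o + x) j ≠ 0 := fun x hx hx' j hj => by
    by_cases k : o j = 0
    · have : b j ≠ 0 := by positivity
      simpa [k] using hx' j (by simpa [ha, k] using this)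
    · exact norm_pos_iff.1 ((by positivity : (0 : ℝ) ≤ ‖o j‖ / 2).trans_lt
        ((e4 (hm x hx)).2.2 j k))
  have hn : ∀ x ∈ closedBall (0 : Cm n) ρ, (∀ l, a l ≠ 0 → x l ≠ 0) →
      ∏ j, (o + x) j ^ m j ≠ 0 := fun x hx hx' => Finset.prod_ne_zero_iff.2 fun j _ => by
    by_cases k : m j = 0
    · simp [k]
    · exact pow_ne_zero _ (hp x hx hx' j k)
  have key := Rm.riem (a := a) (g := fun x => g (o + x))
    (A := |B| * (1 + η⁻¹) ^ (p + 1) * ∏ j, if o j = 0 then 1 else (‖o j‖ / 2) ^ (-b j)) hρ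
    (fun l => by
      have k1 : (m l : ℝ) ≤ ∑ j, (m j : ℝ) :=
        Finset.single_le_sum (f := fun j => (m j : ℝ)) (fun _ _ => by positivity) (Finset.mem_univ l)
      have k2 : b l < 1 := by
        rw [hb, hη, inv_mul_lt_iff₀ (by positivity)]
        nlinarith [Nat.cast_nonneg (α := ℝ) p]
      simp only [ha]
      split_ifs
      exacts [k2, one_pos])
    (fun x hx hx' => ((h _ (e4 (hm x hx)).1 (hn x hx hx')
      ((e4 (hm x hx)).2.1.trans_le (min_le_left _ _))).1.differentiableAt).comp x (by fun_prop))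
    fun x hx hx' => by
      obtain ⟨c1, c2, c3⟩ := e4 (hm x hx)
      have c4 := norm_pos_iff.2 (hn x hx hx')
      have c5 := log_le c4 (c2.trans_le (min_le_right _ _)) η0
      set s := ‖∏ j, (o + x) j ^ m j‖ with hs
      have c6 : 1 ≤ 1 + |Real.log s| := le_add_of_nonneg_right (abs_nonneg _)
      have c7 : (s ^ (-η)) ^ (p + 1) = ∏ j, ‖(o + x) j‖ ^ (-b j) := by
        rw [hs, norm_prod, ← Real.finsetProd_rpow _ _ (fun _ _ => norm_nonneg _), ← Finset.prod_pow]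
        refine Finset.prod_congr rfl fun j _ => ?_
        rw [norm_pow, ← Real.rpow_natCast, ← Real.rpow_natCast, ← Real.rpow_mul (norm_nonneg _),
          ← Real.rpow_mul (norm_nonneg _), hb]
        congr 1
        push_cast
        ring
      refine (h _ c1 (hn x hx hx') (c2.trans_le (min_le_left _ _))).2.trans ?_
      calc B * (1 + |Real.log s|) ^ p ≤ |B| * ((1 + η⁻¹) * s ^ (-η)) ^ (p + 1) :=
            mul_le_mul (le_abs_self B) ((pow_le_pow_right₀ c6 p.le_succ).trans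
              (pow_le_pow_left₀ (by positivity) c5 _)) (by positivity) (abs_nonneg B)
        _ ≤ _ := by
            rw [mul_pow, c7, ← mul_assoc, mul_assoc (_ * _), ← Finset.prod_mul_distrib]
            refine mul_le_mul_of_nonneg_left (Finset.prod_le_prod (fun _ _ => by positivity)
              fun j _ => ?_) (by positivity)
            by_cases k : o j = 0
            · simp [ha, k]
            · simp only [ha, if_neg k, neg_zero, Real.rpow_zero, mul_one]
              exact Real.rpow_le_rpow_of_nonpos (half_pos (norm_pos_iff.2 k)) (c3 j k).le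
                (neg_nonpos.2 (b0 j))
  obtain ⟨B', key⟩ : ∃ B' : ℝ, ∀ x ∈ closedBall (0 : Cm n) ρ, (∀ l, a l ≠ 0 → x l ≠ 0) →
      ‖g (o + x)‖ ≤ B' := ⟨_, key⟩
  refine ⟨B', ?_⟩
  filter_upwards [closedBall_mem_nhds o hρ] with x hx k
  have := key (x - o) (by simpa [dist_eq_norm] using hx) fun l hl => by
    have k1 : o l = 0 := by
      by_contra c
      exact hl (if_neg c)
    have k2 : m l ≠ 0 := fun c => hl (by simp [ha, hb, c])
    simpa [k1] using pow_ne_zero_iff k2 |>.1 (Finset.prod_ne_zero_iff.1 k l (Finset.mem_univ l))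
  rwa [add_sub_cancel] at this

end Xa

theorem exa : EXA := by
  intro n m g δ B p hδ h
  have key : ∃ δ' B' : ℝ, 0 < δ' ∧ ∀ x ∈ closedBall (0 : Cm n) 2, ∏ j, x j ^ m j ≠ 0 →
      ‖∏ j, x j ^ m j‖ < δ' → ‖g x‖ ≤ B' := by
    refine (isCompact_closedBall (0 : Cm n) 2).induction_on (p := fun s => ∃ δ' B' : ℝ, 0 < δ' ∧
      ∀ x ∈ s, ∏ j, x j ^ m j ≠ 0 → ‖∏ j, x j ^ m j‖ < δ' → ‖g x‖ ≤ B') ⟨1, 0, one_pos, by simp⟩
      (fun s t k ⟨a, b, c, d⟩ => ⟨a, b, c, fun x hx => d x (k hx)⟩)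
      (fun s t ⟨a, b, c, d⟩ ⟨a', b', c', d'⟩ => ⟨min a a', max b b', lt_min c c', fun x hx p q =>
        hx.elim (fun k => (d x k p (q.trans_le (min_le_left _ _))).trans (le_max_left _ _))
          fun k => (d' x k p (q.trans_le (min_le_right _ _))).trans (le_max_right _ _)⟩)
      fun o ho => ?_
    by_cases h0 : ∏ j, o j ^ m j = 0
    · obtain ⟨B', k⟩ := Xa.loc hδ h ho h0
      exact ⟨_, mem_nhdsWithin_of_mem_nhds k, 1, B', one_pos, fun x hx p _ => hx p⟩
    · have hc : Continuous fun x : Cm n => ‖∏ j, x j ^ m j‖ := by fun_prop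
      have k := continuousAt_const.eventually_lt hc.continuousAt
        (half_lt_self (norm_pos_iff.2 h0))
      exact ⟨_, mem_nhdsWithin_of_mem_nhds k, _, 0, half_pos (norm_pos_iff.2 h0),
        fun x hx _ q => absurd q (not_lt.2 (le_of_lt hx))⟩
  obtain ⟨a, b, c, d⟩ := key
  exact ⟨a, b, c, fun x hx => d x (ball_subset_closedBall hx)⟩

end Vale.Agent.P301Z.Sn
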