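import Vale.Agent.P301Z.Sn.Defs

/-!
# P301, block SNC: the coefficient of a relative pluricanonical form is holomorphic
-/

open scoped Manifold ContDiff Topology
open Set Filter Metric
open Vale.Agent.P272.K
open Vale.Agent.P277Z (Hol at_chart)
open Vale.Agent.P281Z

noncomputable section

namespace Vale.Agent.P301Z.Sn

namespace Exg

variable {N n : ℕ}

theorem dz_c {f : Cm N → ℂ} {z : Cm N} (h : DifferentiableAt ℂ f z) (i : Fin N) :
    dz i f z = fderiv ℂ f z (Pi.single i 1) := by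
  have h1 : (Pi.single i Complex.I : Cm N) = Complex.I • (Pi.single i 1 : Cm N) := by
    rw [← Pi.single_smul, smul_eq_mul, mul_one]
  rw [dz, h.fderiv_restrictScalars ℝ, ContinuousLinearMap.coe_restrictScalars', h1, map_smul,
    smul_eq_mul, ← mul_assoc, Complex.I_mul_I]
  ring

theorem dz_ev {f g : Cm N → ℂ} {z : Cm N} (h : f =ᶠ[𝓝 z] g) (i : Fin N) : dz i f z = dz i g z := by
  rw [dz, dz, h.fderiv_eq]

theorem logd {X : Cm N → Cm n} {z : Cm N} (hX : DifferentiableAt ℂ X z) (m : Fin n → ℕ) {c : ℂ}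
    (hc : ∀ᶠ w in 𝓝 z, ∏ j, X w j ^ m j = c) (h0 : c ≠ 0) (v : Cm N) :
    ∑ j, (m j : ℂ) / X z j * fderiv ℂ X z v j = 0 := by
  have key : ∀ s : Finset (Fin n), ∏ j ∈ s, X z j ^ m j ≠ 0 →
      ∃ L : Cm N →L[ℂ] ℂ, HasFDerivAt (fun w => ∏ j ∈ s, X w j ^ m j) L z ∧
        L v = (∏ j ∈ s, X z j ^ m j) * ∑ j ∈ s, (m j : ℂ) / X z j * fderiv ℂ X z v j := by
    intro s
    induction s using Finset.induction_on with
    | empty => exact fun _ => ⟨0, by simpa using hasFDerivAt_const (1 : ℂ) z, by simp⟩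
    | insert j s hj ih =>
      intro h1
      rw [Finset.prod_insert hj] at h1
      obtain ⟨L, hL, e⟩ := ih (right_ne_zero_of_mul h1)
      have h2 := ((hasFDerivAt_pi'.1 hX.hasFDerivAt j).pow (m j)).mul hL
      refine ⟨_, by simp only [Finset.prod_insert hj]; exact h2, ?_⟩
      rw [Finset.prod_insert hj, Finset.sum_insert hj]
      simp only [add_apply, smul_apply, e, smul_eq_mul,
        ContinuousLinearMap.comp_apply, ContinuousLinearMap.proj_apply, nsmul_eq_mul]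
      rcases Nat.eq_zero_or_pos (m j) with h3 | h3
      · simp [h3]
      · have h4 : X z j ≠ 0 := fun h => left_ne_zero_of_mul h1 (by rw [h, zero_pow h3.ne'])
        obtain ⟨k, hk⟩ := Nat.exists_eq_succ_of_ne_zero h3.ne'
        rw [hk, Nat.succ_sub_one, pow_succ]
        field_simp
        ring
  have h1 := hc.self_of_nhds
  obtain ⟨L, hL, e⟩ := key Finset.univ (h1 ▸ h0)
  have h2 : L = 0 := hL.unique ((hasFDerivAt_const c z).congr_of_eventuallyEq hc)
  rw [h2, h1] at e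
  exact (mul_eq_zero.1 e.symm).resolve_left h0

/-- the differential of `H` along a fibre of the monomial -/
def Ec (m : Fin (N + 1) → ℕ) (l : Fin (N + 1)) (H : Cm (N + 1) → ℂ) (x : Cm (N + 1)) (c : Fin N) :
    ℂ := fderiv ℂ H x (Pi.single (l.succAbove c) 1) - fderiv ℂ H x (Pi.single l 1) *
      ((m (l.succAbove c) : ℂ) / x (l.succAbove c) * (x l / m l))

theorem chain {X : Cm N → Cm (N + 1)} {z : Cm N} (hX : DifferentiableAt ℂ X z)
    {m : Fin (N + 1) → ℕ} {l : Fin (N + 1)} (hl : m l ≠ 0) {c : ℂ}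
    (hc : ∀ᶠ w in 𝓝 z, ∏ j, X w j ^ m j = c) (h0 : c ≠ 0) {H : Cm (N + 1) → ℂ}
    (hH : DifferentiableAt ℂ H (X z)) (b : Fin N) :
    dz b (fun w => H (X w)) z = ∑ k, Ec m l H (X z) k * dz b (fun w => X w (l.succAbove k)) z := by
  have h1 := logd hX m hc h0 (Pi.single b 1)
  have h2 : X z l ≠ 0 := fun h => h0 (by
    rw [← hc.self_of_nhds]
    exact Finset.prod_eq_zero (Finset.mem_univ l) (by rw [h, zero_pow hl]))
  have h3 : (m l : ℂ) ≠ 0 := Nat.cast_ne_zero.2 hl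
  have h4 : ∀ j, dz b (fun w => X w j) z = fderiv ℂ X z (Pi.single b 1) j := fun j => by
    rw [dz_c (differentiableAt_pi.1 hX j), (hasFDerivAt_pi'.1 hX.hasFDerivAt j).fderiv]
    rfl
  rw [dz_c (hH.fun_comp' z hX), fderiv_fun_comp z hH hX, ContinuousLinearMap.comp_apply]
  simp only [h4]
  set v := fderiv ℂ X z (Pi.single b 1)
  have h5 : fderiv ℂ H (X z) v = ∑ j, fderiv ℂ H (X z) (Pi.single j 1) * v j := by
    conv_lhs => rw [pi_eq_sum_univ' v, map_sum]
    exact Finset.sum_congr rfl fun j _ => by rw [map_smul, smul_eq_mul, mul_comm]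
  rw [Fin.sum_univ_succAbove _ l] at h1
  have h6 : v l = -(X z l / m l) * ∑ k, (m (l.succAbove k) : ℂ) / X z (l.succAbove k) *
      v (l.succAbove k) := by
    rw [← eq_neg_iff_add_eq_zero] at h1
    rw [← neg_neg (∑ k, _), ← h1]
    field_simp
  rw [h5, Fin.sum_univ_succAbove _ l, h6, Finset.mul_sum, Finset.mul_sum, ← Finset.sum_add_distrib]
  exact Finset.sum_congr rfl fun k _ => by rw [Ec]; ring

theorem an_Ec {m : Fin (N + 1) → ℕ} (l : Fin (N + 1)) {H : Cm (N + 1) → ℂ} {x : Cm (N + 1)}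
    (hH : AnalyticAt ℂ H x) (h0 : ∏ j, x j ^ m j ≠ 0) (c : Fin N) :
    AnalyticAt ℂ (fun z => Ec m l H z c) x := by
  have h1 : ∀ v, AnalyticAt ℂ (fun z => fderiv ℂ H z v) x := fun v =>
    ((ContinuousLinearMap.apply ℂ ℂ v).analyticAt _).fun_comp hH.fderiv
  have h2 : ∀ j, AnalyticAt ℂ (fun z : Cm (N + 1) => z j) x := fun j =>
    (ContinuousLinearMap.proj (R := ℂ) (φ := fun _ : Fin (N + 1) => ℂ) j).analyticAt x
  refine (h1 _).fun_sub ((h1 _).fun_mul (AnalyticAt.fun_mul ?_ (h2 l).div_const))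
  rcases Nat.eq_zero_or_pos (m (l.succAbove c)) with h3 | h3
  · simpa [h3] using analyticAt_const
  · exact analyticAt_const.fun_div (h2 _) fun h => h0
      (Finset.prod_eq_zero (Finset.mem_univ _) (by rw [h, zero_pow h3.ne']))

theorem an_det {ι : Type} [Fintype ι] [DecidableEq ι] {M : Cm n → Matrix ι ι ℂ} {x : Cm n}
    (h : ∀ a b, AnalyticAt ℂ (fun y => M y a b) x) : AnalyticAt ℂ (fun y => (M y).det) x := by
  simp only [Matrix.det_apply']
  exact Finset.analyticAt_fun_sum _ fun τ _ =>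
    analyticAt_const.fun_mul (Finset.analyticAt_fun_prod _ fun a _ => h _ _)

variable {F : Fam N} (K : Cov F) (a : Fin K.A) {l : Fin (N + 1)}

theorem mon_ne {x : F.V.X} (hx : x ∈ (K.Θ a).source) (h : F.f x ∉ F.S) :
    ∏ j, K.Θ a x j ^ K.m a j = F.τ (F.f x) / K.c a ∧ F.τ (F.f x) / K.c a ≠ 0 := by
  have h1 : (K.c a : ℂ) ≠ 0 := Complex.ofReal_ne_zero.2 (K.c0 a).ne'
  exact ⟨by rw [K.mon a x hx, mul_div_cancel_left₀ _ h1],
    div_ne_zero (fun h0 => h ((K.leq _ (K.sub a x hx)).mem.1 h0)) h1⟩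

theorem jc_eq (hl : K.m a l ≠ 0) {t : F.C.X} (ht : t ∉ F.S) {Y : Mf N} {i : Y.X → F.V.X}
    (hi : Emb N (N + 1) i (F.f ⁻¹' {t})) {y : Y.X} (hy : i y ∈ (K.Θ a).source) {e : Chart N Y.X}
    (he : At e y) {h : Fin N → F.V.X → ℂ} (hh : ∀ b, Hol (N + 1) (h b) (i y)) :
    jc (fun b y => h b (i y)) e y =
      Matrix.of (fun b => Ec (K.m a) l (fun v => h b ((K.Θ a).symm v)) (K.Θ a (i y))) *
        jc (fun j y => K.Θ a (i y) (l.succAbove j)) e y := by
  ext b k
  have h1 : ∀ᶠ w in 𝓝 (e y), i (e.symm w) ∈ (K.Θ a).source :=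
    at_ev he (hi.hol.cont.continuousAt.eventually ((K.Θ a).open_source.mem_nhds hy))
  have h2 : e.symm (e y) = y := e.left_inv he.2
  have h3 : AnalyticAt ℂ (fun w => K.Θ a (i (e.symm w))) (e y) :=
    AnV.pi (F := fun y => K.Θ a (i y)) (fun j => hi.hol.hol (((K.co a).an _ hy).hol j)) e he
  have h4 : ∀ y, F.f (i y) = t := fun y => hi.mem y
  have h5 := chain h3.differentiableAt hl (c := F.τ t / K.c a)
    (h1.mono fun w hw => by rw [(mon_ne K a hw (by rwa [h4])).1, h4])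
    (by have := (mon_ne K a hy (by rwa [h4])).2; rwa [h4] at this)
    (H := fun v => h b ((K.Θ a).symm v)) (by
      rw [h2]
      exact ((K.co a).an_hol ((K.Θ a).map_source hy)
        (by rw [(K.Θ a).left_inv hy]; exact hh b)).differentiableAt) k
  rw [h2] at h5
  rw [Matrix.mul_apply]
  refine Eq.trans (dz_ev (h1.mono fun w hw => ?_) k) h5
  simp only [(K.Θ a).left_inv hw]

theorem det_ne (hl : K.m a l ≠ 0) {t : F.C.X} (ht : t ∉ F.S) {Y : Mf N} {i : Y.X → F.V.X}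
    (hi : Emb N (N + 1) i (F.f ⁻¹' {t})) {y : Y.X} (hy : i y ∈ (K.Θ a).source) {e : Chart N Y.X}
    (he : At e y) : (jc (fun j y => K.Θ a (i y) (l.succAbove j)) e y).det ≠ 0 := by
  obtain ⟨r, h1, h2, h3⟩ := (hi.imm y).ret (hi.hol.at y)
  have h4 := jc_eq K a hl ht hi hy he (h := fun b x => e (r x) b) fun b =>
    h2.hol (hol_chart (by rwa [h1]) b)
  have h5 : jc (fun b y => e (r (i y)) b) e y = 1 := by
    ext b k
    have h6 : (fun z => e (r (i (e.symm z))) b) =ᶠ[𝓝 (e y)] fun z => z b := by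
      filter_upwards [at_ev he h3, he.nhds_target] with z h7 h8
      rw [h7, e.right_inv h8]
    refine (dz_ev h6 k).trans ?_
    rw [dz_c (differentiableAt_apply b _), fderiv_apply differentiableAt_id b]
    simp [Matrix.one_apply, Pi.single_apply]
  intro h0
  have h6 := congrArg Matrix.det h4
  rw [h5, Matrix.det_one, Matrix.det_mul, h0, mul_zero] at h6
  exact one_ne_zero h6

end Exg

open Exg in
theorem exg : EXG := by
  intro N F K W q Q a l hl hW hS
  have hS' : ∀ t ∈ W, t ∉ F.S := fun t ht => Set.disjoint_left.1 hS ht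
  set Pr : Cm (N + 1) → ℂ → Prop := fun z c => ∀ t ∈ W, ∀ y, Q.i t y ∈ (K.Θ a).source →
    K.Θ a (Q.i t y) = z → ∀ e, At e y → Q.u t e (e y) * lg (K.m a) l z ^ q =
      c * (jc (fun j y => K.Θ a (Q.i t y) (l.succAbove j)) e y).det ^ q with hPr
  have hA : ∀ x ∈ (K.Θ a).source, F.f x ∈ W → ∃ G : Cm (N + 1) → ℂ, AnalyticAt ℂ G (K.Θ a x) ∧
      ∀ᶠ z in 𝓝 (K.Θ a x), Pr z (G z) := by
    intro x hx hxW
    obtain ⟨h, γ, hh, hγ, hr⟩ := Q.rel x hxW
    have h1 : ∀ {g : F.V.X → ℂ}, Hol (N + 1) g x →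
        AnalyticAt ℂ (fun v => g ((K.Θ a).symm v)) (K.Θ a x) := fun hg =>
      (K.co a).an_hol ((K.Θ a).map_source hx) (by rwa [(K.Θ a).left_inv hx])
    obtain ⟨h2, h3⟩ := mon_ne K a hx (hS' _ hxW)
    refine ⟨fun z => γ ((K.Θ a).symm z) * (Matrix.of fun b =>
      Ec (K.m a) l (fun v => h b ((K.Θ a).symm v)) z).det ^ q * lg (K.m a) l z ^ q,
      ((h1 hγ).fun_mul ((an_det fun b c => an_Ec l (h1 (hh b)) (h2 ▸ h3) c).fun_pow q)).fun_mul
        ((Finset.analyticAt_fun_prod _ fun j _ => (ContinuousLinearMap.proj (R := ℂ)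
          (φ := fun _ : Fin (N + 1) => ℂ) j).analyticAt _).fun_pow q), ?_⟩
    filter_upwards [((K.Θ a).tendsto_symm hx).eventually
      (hr.and (eventually_all.2 fun b => (hh b).near))] with z hz t ht y hy hz' e he
    rw [← hz', (K.Θ a).left_inv hy] at hz ⊢
    rw [hz.1 t ht y rfl e he, jc_eq K a hl (hS' t ht) (Q.emb t ht) hy he hz.2, Matrix.det_mul]
    ring
  have hB : ∀ x ∈ (K.Θ a).source, F.f x ∈ W → ∀ c c', Pr (K.Θ a x) c → Pr (K.Θ a x) c' →
      c = c' := by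
    intro x hx hxW c c' h1 h2
    obtain ⟨y, hy⟩ := (Q.emb _ hxW).ex (y := x) rfl
    have h3 : Q.i (F.f x) y ∈ (K.Θ a).source := by rwa [hy]
    have h4 := h1 _ hxW y h3 (by rw [hy]) _ (at_chart y)
    rw [h2 _ hxW y h3 (by rw [hy]) _ (at_chart y)] at h4
    exact (mul_right_cancel₀ (pow_ne_zero q
      (det_ne K a hl (hS' _ hxW) (Q.emb _ hxW) h3 (at_chart y))) h4).symm
  refine ⟨fun z => Classical.epsilon (Pr z), fun x hx hxW => ?_, fun t ht y hy e he =>
    ⟨det_ne K a hl (hS' t ht) (Q.emb t ht) hy he, ?_⟩⟩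
  · obtain ⟨G, h1, h2⟩ := hA x hx hxW
    refine h1.congr ?_
    filter_upwards [h2, (K.Θ a).open_target.mem_nhds ((K.Θ a).map_source hx),
      ((K.Θ a).tendsto_symm hx).eventually
        (F.hol.cont.continuousAt.eventually (hW.mem_nhds hxW))] with z h3 h4 h5
    have h6 := hB _ ((K.Θ a).map_target h4) h5
    rw [(K.Θ a).right_inv h4] at h6
    exact h6 _ _ h3 (Classical.epsilon_spec (p := Pr z) ⟨_, h3⟩)
  · obtain ⟨G, -, h2⟩ := hA _ hy (by rw [show F.f (Q.i t y) = t from (Q.emb t ht).mem y]; exact ht)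
    exact Classical.epsilon_spec (p := Pr _) ⟨_, h2.self_of_nhds⟩ t ht y hy rfl e he

end Vale.Agent.P301Z.Sn
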