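import Vale.Agent.P301Z.Sn.Defs
import Vale.Agent.P281Z.Sc.L2
import Vale.Agent.P272.K.Inv.Wirt

/-!
# P301, block SNC: the mean value inequality on the fibres
-/

open scoped Manifold ContDiff Topology ENNReal
open Set Filter Metric MeasureTheory
open Vale.Agent.P272.K
open Vale.Agent.P277Z (Hol)
open Vale.Agent.P281Z

noncomputable section

namespace Vale.Agent.P301Z.Sn

namespace Exm

variable {N : ℕ} (m : Fin (N + 1) → ℕ) (l : Fin (N + 1)) (x : Cm (N + 1))

/-- the parametrization of the fibre -/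
def XX (w : Cm N) : Cm (N + 1) :=
  l.insertNth (x l * Complex.exp (-(∑ j, m (l.succAbove j) * w j) / m l)) fun j =>
    if m (l.succAbove j) = 0 then x (l.succAbove j) + w j else x (l.succAbove j) * Complex.exp (w j)

theorem XX_l (w : Cm N) :
    XX m l x w l = x l * Complex.exp (-(∑ j, m (l.succAbove j) * w j) / m l) :=
  Fin.insertNth_apply_same _ _ _

theorem XX_s (w : Cm N) (j : Fin N) : XX m l x w (l.succAbove j) =
    if m (l.succAbove j) = 0 then x (l.succAbove j) + w j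
    else x (l.succAbove j) * Complex.exp (w j) :=
  Fin.insertNth_apply_succAbove _ _ _ _

theorem XX_zero : XX m l x 0 = x := funext <| (Fin.forall_iff_succAbove l).2
  ⟨by simp [XX_l], fun j => by simp [XX_s]⟩

theorem an_co (j : Fin N) (w : Cm N) : AnalyticAt ℂ (fun w : Cm N => w j) w :=
  (ContinuousLinearMap.proj (R := ℂ) (φ := fun _ : Fin N => ℂ) j).analyticAt w

theorem XX_an (w : Cm N) : AnalyticAt ℂ (XX m l x) w := by
  refine analyticAt_pi_iff.2 ((Fin.forall_iff_succAbove l).2 ⟨?_, fun j => ?_⟩)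
  · simp only [XX_l, div_eq_mul_inv]
    exact analyticAt_const.fun_mul (((Finset.analyticAt_fun_sum _ fun j _ =>
      analyticAt_const.fun_mul (an_co j w)).fun_neg.fun_mul analyticAt_const).cexp')
  · simp only [XX_s]
    split_ifs
    exacts [analyticAt_const.fun_add (an_co j w), analyticAt_const.fun_mul (an_co j w).cexp']

theorem XX_prod (hl : m l ≠ 0) (w : Cm N) : ∏ k, XX m l x w k ^ m k = ∏ k, x k ^ m k := by
  have h1 : ∀ j, XX m l x w (l.succAbove j) ^ m (l.succAbove j) =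
      x (l.succAbove j) ^ m (l.succAbove j) * Complex.exp (m (l.succAbove j) * w j) := fun j => by
    rw [XX_s]
    split_ifs with h
    · simp [h]
    · rw [mul_pow, Complex.exp_nat_mul]
  have h2 : (m l : ℂ) ≠ 0 := Nat.cast_ne_zero.2 hl
  rw [Fin.prod_univ_succAbove _ l, Fin.prod_univ_succAbove (fun k => x k ^ m k) l, XX_l,
    Finset.prod_congr rfl fun j _ => h1 j, Finset.prod_mul_distrib, ← Complex.exp_sum, mul_pow,
    ← Complex.exp_nat_mul, mul_div_cancel₀ _ h2, Complex.exp_neg]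
  field_simp

/-- the radius -/
def rad : ℝ := 1 / (10 * (1 + ∑ j, (m j : ℝ)))

theorem rad_pos : 0 < rad m := by unfold rad; positivity

theorem rad_mul : (1 + ∑ j, (m j : ℝ)) * rad m = 1 / 10 := by
  have : 0 < 1 + ∑ j, (m j : ℝ) := by positivity
  unfold rad
  field_simp

theorem rad_le : rad m ≤ 1 / 10 := by
  have h1 : 0 ≤ ∑ j, (m j : ℝ) := by positivity
  nlinarith [rad_mul m, rad_pos m]

theorem norm_exp {a z : ℂ} (ha : ‖a‖ < 5 / 2) (hz : ‖z‖ ≤ 1 / 10) : ‖a * Complex.exp z‖ < 3 := by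
  have h1 := Complex.norm_exp_sub_one_le (x := z) (by linarith)
  have h2 := norm_sub_norm_le (Complex.exp z) 1
  rw [norm_one] at h2
  rw [norm_mul]
  nlinarith [norm_nonneg a, norm_nonneg (Complex.exp z)]

variable {m l x}

theorem XX_mem (hl : m l ≠ 0) (hx : x ∈ ball (0 : Cm (N + 1)) (5 / 2)) {w : Cm N}
    (hw : w ∈ ball (0 : Cm N) (rad m)) : XX m l x w ∈ ball (0 : Cm (N + 1)) 3 := by
  rw [mem_ball_zero_iff, pi_norm_lt_iff (by norm_num)] at hx ⊢
  rw [mem_ball_zero_iff, pi_norm_lt_iff (rad_pos m)] at hw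
  refine (Fin.forall_iff_succAbove l).2 ⟨?_, fun j => ?_⟩
  · rw [XX_l]
    refine norm_exp (hx l) ?_
    have h1 : (1 : ℝ) ≤ m l := Nat.one_le_cast.2 (Nat.pos_of_ne_zero hl)
    have h2 : ‖∑ j, (m (l.succAbove j) : ℂ) * w j‖ ≤ (∑ j, (m (l.succAbove j) : ℝ)) * rad m := by
      rw [Finset.sum_mul]
      refine (norm_sum_le _ _).trans (Finset.sum_le_sum fun j _ => ?_)
      rw [norm_mul, Complex.norm_natCast]
      exact mul_le_mul_of_nonneg_left (hw j).le (Nat.cast_nonneg _)
    have h3 := rad_mul m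
    rw [Fin.sum_univ_succAbove _ l] at h3
    rw [norm_div, norm_neg, Complex.norm_natCast]
    refine (div_le_self (norm_nonneg _) h1).trans (h2.trans ?_)
    nlinarith [rad_pos m]
  · rw [XX_s]
    split_ifs
    · linarith [norm_add_le (x (l.succAbove j)) (w j), hx (l.succAbove j), hw j, rad_le m]
    · exact norm_exp (hx _) ((hw j).le.trans (rad_le m))

theorem ne_of_prod (h : ∏ k, x k ^ m k ≠ 0) {k : Fin (N + 1)} (hk : m k ≠ 0) : x k ≠ 0 := fun c =>
  h (Finset.prod_eq_zero (Finset.mem_univ k) (by rw [c, zero_pow hk]))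

theorem XX_inj (h : ∏ k, x k ^ m k ≠ 0) : InjOn (XX m l x) (ball (0 : Cm N) (rad m)) := by
  intro w hw w' hw' k
  rw [mem_ball_zero_iff, pi_norm_lt_iff (rad_pos m)] at hw hw'
  funext j
  have h1 := congrFun k (l.succAbove j)
  rw [XX_s, XX_s] at h1
  split_ifs at h1 with c
  · exact add_left_cancel h1
  · have h2 : ∀ z : ℂ, ‖z‖ < rad m → -Real.pi < z.im ∧ z.im ≤ Real.pi := fun z hz => by
      have h3 := abs_le.1 (Complex.abs_im_le_norm z)
      constructor <;> linarith [h3.1, h3.2, rad_le m, Real.pi_gt_three]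
    exact Complex.exp_inj_of_neg_pi_lt_of_le_pi (h2 _ (hw j)).1 (h2 _ (hw j)).2 (h2 _ (hw' j)).1
      (h2 _ (hw' j)).2 (mul_left_cancel₀ (ne_of_prod h c) h1)

theorem lg_eq (m : Fin (N + 1) → ℕ) (l : Fin (N + 1)) (x : Cm (N + 1)) :
    lg m l x = ∏ j, if m (l.succAbove j) = 0 then 1 else x (l.succAbove j) := by
  rw [lg, Finset.prod_filter, Fin.prod_univ_succAbove _ l, if_neg (by simp), one_mul]
  exact Finset.prod_congr rfl fun j _ => by simp [Fin.succAbove_ne]

theorem XX_det (w : Cm N) :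
    (Matrix.of fun a b => dz b (fun w => XX m l x w (l.succAbove a)) w).det =
      lg m l (XX m l x w) := by
  rw [lg_eq, ← Matrix.det_diagonal]
  refine congrArg Matrix.det (Matrix.ext fun a b => ?_)
  have h1 : HasFDerivAt (fun w : Cm N => w a)
      (ContinuousLinearMap.proj (R := ℂ) (φ := fun _ : Fin N => ℂ) a) w := hasFDerivAt_apply a w
  rw [Matrix.of_apply, Matrix.diagonal_apply]
  simp only [XX_s]
  by_cases c : m (l.succAbove a) = 0
  · simp only [if_pos c]
    rw [dz_of_holo (h1.const_add _).differentiableAt, (h1.const_add _).fderiv]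
    simp [Pi.single_apply]
  · simp only [if_neg c]
    rw [dz_of_holo (h1.cexp.const_mul _).differentiableAt, (h1.cexp.const_mul _).fderiv]
    simp [Pi.single_apply]

/-- the mean value inequality -/
theorem mean {G : Cm N → ℂ} {ρ I : ℝ} (hρ : 0 < ρ)
    (hG : ∀ z ∈ closedBall (0 : Cm N) ρ, AnalyticAt ℂ G z)
    (h : ∫ z in closedBall (0 : Cm N) ρ, ‖G z‖ ≤ I) :
    ‖G 0‖ ≤ (volume (ball (0 : Cm N) ρ)).toReal⁻¹ * I := by
  have h0 : 0 ≤ I := (integral_nonneg fun _ => norm_nonneg _).trans h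
  have h1 := Sc.mean (f := G) (q := 0) isOpen_ball (P := ball 0 ρ) (fun z hz t ht => by
    rw [mem_ball_zero_iff] at hz ⊢
    rw [zero_add, sub_zero, norm_smul]
    exact (mul_le_of_le_one_left (norm_nonneg _) ht).trans_lt hz)
    (fun z hz => hG z (ball_subset_closedBall hz)) one_pos
  have h2 : IntegrableOn G (closedBall (0 : Cm N) ρ) :=
    ContinuousOn.integrableOn_compact (isCompact_closedBall _ _) fun z hz =>
      (hG z hz).continuousAt.continuousWithinAt
  simp only [ENNReal.rpow_one] at h1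
  have h3 := (h1.trans (lintegral_mono_set ball_subset_closedBall)).trans
    ((ofReal_integral_norm_eq_lintegral_enorm h2).ge.trans (ENNReal.ofReal_le_ofReal h))
  have h4 := ENNReal.toReal_mono ENNReal.ofReal_ne_top h3
  rw [ENNReal.toReal_mul, toReal_enorm, ENNReal.toReal_ofReal h0] at h4
  rw [← div_eq_inv_mul, le_div_iff₀ (ENNReal.toReal_pos (measure_ball_pos volume _ hρ).ne'
    measure_ball_lt_top.ne)]
  exact h4

end Exm

open Exm

theorem exm_of (hB : BOX) : EXM := by
  intro N F K a l hl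
  refine ⟨(volume (ball (0 : Cm N) (rad (K.m a) / 2))).toReal⁻¹, by positivity, ?_⟩
  intro t ht Y i hi u g I hI hc hch hg y₀ hy₀ hx
  have hr := rad_pos (K.m a)
  set x := K.Θ a (i y₀) with hxd
  have h0 : F.τ t = K.c a * ∏ j, x j ^ K.m a j := by rw [← hi.fib y₀]; exact K.mon a _ hy₀
  have htU : t ∈ K.U := hi.fib y₀ ▸ K.sub a _ hy₀
  have h1 : ∏ j, x j ^ K.m a j ≠ 0 := fun c =>
    ht ((K.leq t htU).mem.1 (by rw [h0, c, mul_zero]))
  have h2 : ∀ w ∈ ball (0 : Cm N) (rad (K.m a)), XX (K.m a) l x w ∈ (K.Θ a).target := fun w hw =>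
    (K.tgt a).symm ▸ XX_mem hl hx hw
  have : Nonempty Y.X := ⟨y₀⟩
  set E : Cm N → Y.X := fun w => Function.invFun i ((K.Θ a).symm (XX (K.m a) l x w)) with hE
  have h3 : ∀ w ∈ ball (0 : Cm N) (rad (K.m a)), i (E w) = (K.Θ a).symm (XX (K.m a) l x w) :=
    fun w hw => Function.invFun_eq (hi.ex (K.inj (K.sub a _ ((K.Θ a).map_target (h2 w hw))) htU (by
      rw [K.mon a _ ((K.Θ a).map_target (h2 w hw)), (K.Θ a).right_inv (h2 w hw), XX_prod _ _ _ hl,
        h0])))
  have h4 : ∀ w ∈ ball (0 : Cm N) (rad (K.m a)), i (E w) ∈ (K.Θ a).source := fun w hw =>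
    (h3 w hw).symm ▸ (K.Θ a).map_target (h2 w hw)
  have h5 : ∀ w ∈ ball (0 : Cm N) (rad (K.m a)), K.Θ a (i (E w)) = XX (K.m a) l x w := fun w hw =>
    by rw [h3 w hw, (K.Θ a).right_inv (h2 w hw)]
  have h6 : ContinuousOn E (ball 0 (rad (K.m a))) :=
    hi.cemb.isInducing.continuousOn_iff.2 (((K.Θ a).continuousOn_symm.comp (fun w _ =>
      (XX_an _ _ _ w).continuousAt.continuousWithinAt) h2).congr h3)
  have h7 := hB N Y (fun e z => ‖u e z‖) I hI
    (fun e y he => ⟨norm_nonneg _, (hc e y he).norm⟩)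
    (fun e e' y he he' => by rw [hch e e' y he he', norm_mul, norm_pow]) _ E
    (fun w => ‖g (XX (K.m a) l x w)‖) isOpen_ball
    (fun w hw w' hw' k => XX_inj h1 hw hw' (by rw [← h5 w hw, ← h5 w' hw', k])) h6
    (fun z hz e he => ?_) _ (closedBall_subset_ball (half_lt_self hr)) (isCompact_closedBall _ _)
  · have h8 := mean (G := fun w => g (XX (K.m a) l x w)) (half_pos hr) (fun z hz => by
      have k := closedBall_subset_ball (half_lt_self hr) hz
      exact (h5 z k ▸ (hg _ (h4 z k)).1).fun_comp (XX_an _ _ _ z)) h7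
    rwa [XX_zero] at h8
  have hU := isOpen_ball.mem_nhds hz
  have hz' := h6.continuousAt hU
  have h8 : AnalyticAt ℂ (fun z => e (E z)) z := by
    obtain ⟨r, k1, k2, k3⟩ := (hi.imm (E z)).ret (hi.hol.at _)
    refine (AnalyticAt.pi fun b => ((K.co a).an_hol (h2 z hz) (a := fun v => e (r v) b)
      (h3 z hz ▸ k2.hol (hol_chart (k1.symm ▸ he) b))).fun_comp (XX_an _ _ _ z)).congr ?_
    filter_upwards [hU, hz'.eventually k3] with w k4 k5
    rw [← h3 w k4, k5]
  refine ⟨h8, ?_⟩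
  have h9 : lg (K.m a) l (XX (K.m a) l x z) =
      (jc (fun j y => K.Θ a (i y) (l.succAbove j)) e (E z)).det *
        (Matrix.of fun a b => dz b (fun z => e (E z) a) z).det := by
    rw [← XX_det, ← Matrix.det_mul]
    refine congrArg Matrix.det (Matrix.ext fun p b => ?_)
    have k1 := hi.hol.hol (((K.co a).an _ (h4 z hz)).hol (l.succAbove p)) e he
    have k2 := dz_comp_holo (i := b) (τ := fun z => e (E z))
      (k1.differentiableAt.restrictScalars ℝ) h8.differentiableAt
    rw [Matrix.mul_apply, Matrix.of_apply]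
    refine Eq.trans (dz_congr ?_) k2
    filter_upwards [hU, hz'.eventually (at_near he)] with w k4 k5
    rw [k5.left_inv, h5 w k4]
  have h10 : lg (K.m a) l (XX (K.m a) l x z) ≠ 0 := Finset.prod_ne_zero_iff.2 fun j hj =>
    ne_of_prod (by rwa [XX_prod _ _ _ hl]) (Finset.mem_filter.1 hj).2.2
  have h11 := (hg _ (h4 z hz)).2 e he
  rw [h5 z hz, h9] at h11
  rw [h9] at h10
  rw [← norm_pow, ← norm_mul]
  refine congrArg norm (mul_right_cancel₀ (pow_ne_zero 2 (left_ne_zero_of_mul h10)) ?_)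
  rw [← h11]
  ring

end Vale.Agent.P301Z.Sn
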