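import Vale.Agent.P301Z.Sn.Defs

/-!
# P301, block SNC: fibres of the model, residues
-/

open scoped Manifold ContDiff Topology
open Set Filter Matrix
open Vale.Agent.P272.K
open Vale.Agent.P277Z (Hol at_chart hol_const)
open Vale.Agent.P281Z

namespace Vale.Agent.P301Z.Sn

theorem lift : LIFT := by
  intro D N M C c A S R t ht _ hc Y i hi
  have hm : ∀ y, i y ∈ A ∩ c ⁻¹' {t} := fun y => hi.rng ▸ mem_range_self y
  have hS : ∀ {x}, c x = t → x ∉ c ⁻¹' S := fun h h' => ht (h ▸ h')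
  choose j hj hu using fun y => R.ovr.one (i y) (hm y).1 (hS (hm y).2)
  have hF : IsClosed ((fun y => c (R.π y)) ⁻¹' {t}) :=
    isClosed_singleton.preimage (hc.cont.comp R.ovr.hol.cont)
  have hjF : ∀ y, j y ∈ (fun y => c (R.π y)) ⁻¹' {t} := fun y => by
    change c (R.π (j y)) = t
    rw [hj y]
    exact (hm y).2
  have hcont : Continuous j := by
    have := isCompact_iff_compactSpace.1 hF.isCompact
    have h1 : Topology.IsClosedEmbedding fun x : (fun y => c (R.π y)) ⁻¹' {t} => R.π x :=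
      (R.ovr.hol.cont.comp continuous_subtype_val).isClosedEmbedding fun x x' h => Subtype.ext <|
        (R.ovr.one _ (R.ovr.maps x) (hS x.2)).unique rfl h.symm
    have h2 : Continuous fun y => (⟨j y, hjF y⟩ : (fun y => c (R.π y)) ⁻¹' {t}) :=
      h1.isInducing.continuous_iff.2 (hi.hol.cont.congr fun y => (hj y).symm)
    exact continuous_subtype_val.comp h2
  have e : (fun y => R.π (j y)) = i := funext hj
  have hol : HolM N (N + 1) j := fun y =>
    (R.ovr.imm _ (hS (hjF y))).lift (R.ovr.hol.at _) hcont.continuousAt (e ▸ hi.hol.at y)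
  refine ⟨j, ⟨hol, fun y y' h => hi.inj (by rw [← hj, h, hj]), fun y =>
    Imm.of_comp (R.ovr.hol.at _) (hol.at y) (e ▸ hi.imm y), ?_⟩, hj⟩
  refine Subset.antisymm (range_subset_iff.2 hjF) fun x hx => ?_
  obtain ⟨y, hy⟩ : R.π x ∈ range i := hi.rng ▸ ⟨R.ovr.maps x, hx⟩
  exact ⟨y, (hu y x hy.symm).symm⟩

namespace Lift

theorem exists_R {N : ℕ} (σ : Fin 1 ⊕ Fin N ≃ Fin (N + 1)) {A : Matrix (Fin 1) (Fin (N + 1)) ℂ}
    {B : Matrix (Fin (N + 1)) (Fin 1) ℂ} (h : A * B = 1) : ∃ R, detR σ A R ≠ 0 := by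
  obtain ⟨l, hl⟩ : ∃ l, A 0 l ≠ 0 := by
    by_contra h0
    push Not at h0
    simpa [mul_apply, h0] using congrFun (congrFun h 0) 0
  have h1 : ((1 : Matrix (Fin (N + 1)) (Fin (N + 1)) ℂ).updateRow l (A 0)).det = A 0 l := by
    rw [← cramer_transpose_apply, transpose_one, cramer_one]
    rfl
  refine ⟨of fun a => (1 : Matrix _ _ ℂ).updateRow l (A 0) (Equiv.swap l (σ (.inl 0)) (σ (.inr a))),
    ?_⟩
  have h2 : (fromRows A (of fun a => (1 : Matrix _ _ ℂ).updateRow l (A 0)
      (Equiv.swap l (σ (.inl 0)) (σ (.inr a))))).submatrix σ.symm id =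
      ((1 : Matrix _ _ ℂ).updateRow l (A 0)).submatrix (Equiv.swap l (σ (.inl 0))) id := by
    ext k b
    obtain ⟨k, rfl⟩ := σ.surjective k
    rcases k with k | k
    · rw [Subsingleton.elim k 0]
      simp
    · simp
  rw [detR, h2, det_permute, h1]
  exact mul_ne_zero (by exact_mod_cast (Equiv.Perm.sign _).ne_zero) hl

theorem jc_eq {n N : ℕ} {X Y : Type} [TopologicalSpace X] [ChartedSpace (Cm n) X]
    [TopologicalSpace Y] [ChartedSpace (Cm N) Y] [IsManifold 𝓘(ℂ, Cm n) ω X]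
    [IsManifold 𝓘(ℂ, Cm N) ω Y] {i : Y → X} {y : Y} {c : Chart N Y} {e : Chart n X}
    (hi : HolA N n i y) (hc : At c y) (he : At e (i y)) (R : Matrix (Fin N) (Fin n) ℂ) :
    jc (fun a y => ∑ b, R a b * e (i y) b) c y = R * dfM i c e y := by
  ext a b
  have h1 : ∀ k, HasFDerivAt (fun z => e (i (c.symm z)) k)
      ((ContinuousLinearMap.proj k).comp (df i c e y)) (c y) :=
    hasFDerivAt_pi'.1 (hi.an hc he).differentiableAt.hasFDerivAt
  have h2 := HasFDerivAt.fun_sum (u := Finset.univ) fun k _ => (h1 k).const_mul (R a k)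
  rw [jc, of_apply, dz_of_holo h2.differentiableAt, h2.fderiv, mul_apply]
  simp [dfM_apply]

end Lift

theorem resid : RESID := by
  intro N q V C f e' σ θ x hf he' hs hθ hr
  have he := at_chart (n := N + 1) x
  generalize chartAt (Cm (N + 1)) x = e₀ at he
  obtain ⟨R, hR⟩ := Lift.exists_R σ (hs.rinv he he')
  have h1 : Hol (N + 1) (fun y => detR σ (dfM f e₀ e' y) R) x := by
    refine hol_det fun a b => ?_
    simp only [submatrix_apply, id]
    rcases σ.symm a with a | a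
    · exact hol_dfM (hf.at x) he he' a b
    · exact hol_const _ _
  refine ⟨fun a y => ∑ b, R a b * e₀ y b, fun y => θ e₀ y / detR σ (dfM f e₀ e' y) R ^ q,
    fun a => Hol.sum _ fun b _ => (hol_const _ _).mul (hol_chart he b),
    (hθ _ he).div (h1.pow q) (pow_ne_zero _ hR), ?_⟩
  filter_upwards [hr, h1.ne_near hR, at_near he, hs.near (hf.at x),
    hf.cont.continuousAt.eventually (at_near he')] with x' k1 k2 k3 k4 k5
  rintro Y i t hi y rfl c e hc he₁
  have h2 := hi.fibA hf k4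
  rw [Lift.jc_eq (hi.hol.at y) hc k3, ← h2.spec σ hc k3 k5, ← h2.chgX σ hc he₁ k3 k5,
    k1 e e₀ he₁ k3]
  field_simp
  ring

end Vale.Agent.P301Z.Sn
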