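import Vale.Agent.P301Z.Sn.Defs
import Vale.Agent.P277Z.Slc.Div
import Vale.Agent.P272.K.INT.Part

/-!
# P301, block SNC: the functions `- log |s_l|²`
-/

open scoped Manifold ContDiff Topology
open Set Filter Metric
open Vale.Agent.P272.K
open Vale.Agent.P277Z (Hol at_chart)
open Vale.Agent.P277Z.Slc (LEq stUnit dd tendsto_symm)
open Vale.Agent.P277Z.Slc.Dv (ext ext_eq dense_compl)
open Vale.Agent.P281Z

noncomputable section

namespace Vale.Agent.P301Z.Sn

namespace RhoA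

variable {n : ℕ} {V : Mf n}

/-- smooth at a point -/
def Sm (u : V.X → ℝ) (y : V.X) : Prop :=
  ∀ e : Chart n V.X, At e y → ContDiffAt ℝ ∞ (fun z => u (e.symm z)) (e y)

theorem Sm.cont {u : V.X → ℝ} {y : V.X} (h : Sm u y) : ContinuousAt u y := by
  have he := at_chart (n := n) y
  exact ((h _ he).continuousAt.comp ((chartAt (Cm n) y).continuousAt he.2)).congr
    ((P277Z.At.left he).mono fun y hy => congrArg u hy)

theorem sm_sq {a : V.X → ℂ} {y : V.X} (h : Hol n a y) : Sm (fun x => ‖a x‖ ^ 2) y := fun e he =>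
  ((h e he).restrictScalars (𝕜 := ℝ)).contDiffAt.norm_sq ℂ

theorem sm_term {χ u : V.X → ℝ} (hχ : SmoothFn (n := n) χ) {y : V.X} (h : y ∈ tsupport χ → Sm u y) :
    Sm (fun x => χ x * u x) y := fun e he => by
  by_cases q : y ∈ tsupport χ
  · exact (hχ e y he).mul (h q e he)
  · refine (contDiffAt_const (c := (0 : ℝ))).congr_of_eventuallyEq ?_
    filter_upwards [(tendsto_symm he).eventually (notMem_tsupport_iff_eventuallyEq.1 q)] with z hz
    rw [hz, Pi.zero_apply, zero_mul]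

theorem part (O : V.X → Set V.X) (hO : ∀ y, O y ∈ 𝓝 y) : ∃ (t : Finset V.X) (χ : t → V.X → ℝ),
    (∀ i, SmoothFn (n := n) (χ i)) ∧ (∀ i y, 0 ≤ χ i y) ∧ (∀ i, tsupport (χ i) ⊆ O i) ∧
      ∀ y, ∃ i, 0 < χ i y := by
  have := INT.isManifold_real n V.X
  obtain ⟨t, ht⟩ := isCompact_univ.elim_finite_subcover (fun x => interior (O x))
    (fun _ => isOpen_interior) fun x _ => mem_iUnion.2 ⟨x, mem_interior_iff_mem_nhds.2 (hO x)⟩
  obtain ⟨f, hf⟩ := SmoothPartitionOfUnity.exists_isSubordinate 𝓘(ℝ, Cm n) isClosed_univ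
    (fun i : t => interior (O i)) (fun _ => isOpen_interior) fun x hx => by
      obtain ⟨y, hy, k⟩ := mem_iUnion₂.1 (ht hx)
      exact mem_iUnion.2 ⟨⟨y, hy⟩, k⟩
  exact ⟨t, fun i => f i, fun i => INT.smoothFn_of_contMDiff (f i).contMDiff, f.nonneg,
    fun i => (hf i).trans interior_subset, fun y => f.exists_pos_of_mem (mem_univ y)⟩

theorem quo {G : Set V.X} (hG : ∀ x, ∃ ζ, LEq n G x ζ) {ζ ξ : V.X → ℂ} {y : V.X}
    (ha : LEq n G y ζ) (hb : LEq n G y ξ) : Hol n (ext Gᶜ fun y => ζ y / ξ y) y ∧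
      ext Gᶜ (fun y => ζ y / ξ y) y ≠ 0 ∧ ζ y = ext Gᶜ (fun y => ζ y / ξ y) y * ξ y := by
  obtain ⟨u, h1, h2, h3⟩ := stUnit n V.X G y _ _ hb ha
  have h4 := ext_eq (f := fun y => ζ y / ξ y) (dense_compl hG) h1 (by
    filter_upwards [h3, hb.1] with y' h5 h6 h7
    rw [h5, mul_div_cancel_right₀ _ (mt h6.1 h7)])
  exact ⟨h1.congr h4, h4.self_of_nhds ▸ h2, h4.self_of_nhds ▸ h3.self_of_nhds⟩

theorem one {G : Set V.X} (hG : ∀ x, ∃ ζ, LEq n G x ζ) : ∃ ρ : V.X → ℝ, (∀ y ∉ G, 1 ≤ ρ y) ∧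
    ∀ ξ : V.X → ℂ, ∃ Q : V.X → ℝ, ∀ y, LEq n G y ξ →
      Sm Q y ∧ (y ∉ G → ρ y = Q y - Real.log (‖ξ y‖ ^ 2)) := by
  choose ζ hζ using id hG
  obtain ⟨t, χ, h1, h2, h3, h4⟩ := part (fun x => {y | LEq n G y (ζ x)}) fun x => (hζ x).near
  have pos : ∀ (u : t → V.X → ℂ) y, (∀ i, y ∈ tsupport (χ i) → u i y ≠ 0) →
      0 < ∑ i, χ i y * ‖u i y‖ ^ 2 := fun u y h => by
    obtain ⟨i, hi⟩ := h4 y
    exact Finset.sum_pos' (fun i _ => mul_nonneg (h2 i y) (by positivity))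
      ⟨i, Finset.mem_univ i, mul_pos hi (pow_pos (norm_pos_iff.2
        (h i (subset_tsupport _ hi.ne'))) 2)⟩
  have sm : ∀ (u : t → V.X → ℂ) y, (∀ i, y ∈ tsupport (χ i) → Hol n (u i) y) →
      Sm (fun y => ∑ i, χ i y * ‖u i y‖ ^ 2) y := fun u y h e he =>
    ContDiffAt.sum fun i _ => sm_term (h1 i) (fun k => sm_sq (h i k)) e he
  have hc : Continuous fun y => ∑ i : t, χ i y * ‖ζ i y‖ ^ 2 :=
    continuous_iff_continuousAt.2 fun y => (sm (fun i => ζ i) y fun i k => (h3 i k).hol).cont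
  obtain ⟨M, hM⟩ := (isCompact_range hc).bddAbove
  refine ⟨fun y => Real.log M + 1 - Real.log (∑ i : t, χ i y * ‖ζ i y‖ ^ 2), fun y hy => ?_,
    fun ξ => ⟨fun y => Real.log M + 1 -
      Real.log (∑ i : t, χ i y * ‖ext Gᶜ (fun y => ζ i y / ξ y) y‖ ^ 2), fun y hy => ?_⟩⟩
  · have := Real.log_le_log (pos (fun i => ζ i) y fun i k => mt (h3 i k).mem.1 hy)
      (hM (mem_range_self y))
    linarith
  · have h5 := pos (fun i => ext Gᶜ fun y => ζ i y / ξ y) y fun i k => (quo hG (h3 i k) hy).2.1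
    refine ⟨fun e he => contDiffAt_const.sub ((sm (fun i => ext Gᶜ fun y => ζ i y / ξ y) y
      (fun i k => (quo hG (h3 i k) hy).1) e he).log (by rw [he.left_inv]; exact h5.ne')),
      fun hy' => ?_⟩
    have h6 : ∑ i : t, χ i y * ‖ζ i y‖ ^ 2 =
        (∑ i : t, χ i y * ‖ext Gᶜ (fun y => ζ i y / ξ y) y‖ ^ 2) * ‖ξ y‖ ^ 2 := by
      rw [Finset.sum_mul]
      refine Finset.sum_congr rfl fun i _ => ?_
      by_cases k : y ∈ tsupport (χ i)
      · rw [(quo hG (h3 i k) hy).2.2, norm_mul, mul_pow, mul_assoc]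
      · simp [image_eq_zero_of_notMem_tsupport k]
    have h7 : ‖ξ y‖ ^ 2 ≠ 0 := pow_ne_zero 2 (norm_ne_zero_iff.2 (mt hy.mem.1 hy'))
    simp only [h6, Real.log_mul h5.ne' h7]
    ring

theorem dd_ne {Θ : Chart n V.X} (h : Co n Θ) {y : V.X} (hy : y ∈ Θ.source) {e : Chart n V.X}
    (he : At e y) (j : Fin n) : dd (fun x => Θ x j) e y ≠ 0 := fun k => by
  have hv := Θ.map_source hy
  have h1 : HasFDerivAt (fun z => Θ (e.symm z) j) (0 : Cm n →L[ℂ] ℂ) (e (Θ.symm (Θ y))) := by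
    rw [Θ.left_inv hy]
    exact k ▸ ((h.an y hy).hol j e he).differentiableAt.hasFDerivAt
  have h2 := h1.comp (Θ y)
    (h.inv _ hv e (by rwa [Θ.left_inv hy])).differentiableAt.hasFDerivAt
  have h3 : HasFDerivAt (fun v : Cm n => v j) _ (Θ y) := h2.congr_of_eventuallyEq (by
    have h4 : Tendsto Θ.symm (𝓝 (Θ y)) (𝓝 y) := by
      simpa only [ContinuousAt, Θ.left_inv hy] using Θ.continuousAt_symm hv
    filter_upwards [h4.eventually (P277Z.At.left he), Θ.open_target.mem_nhds hv] with v m1 m2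
    simp only [Function.comp, m1, Θ.right_inv m2])
  have h5 := congrArg (fun L : Cm n →L[ℂ] ℂ => L (Pi.single j 1))
    (h3.unique (hasFDerivAt_apply j (Θ y)))
  simp at h5

end RhoA

open RhoA in
theorem rho : RHO := by
  intro N F K
  choose ρ h1 Q hQ using fun l => one (G := F.G l) fun x =>
    (F.snc x).imp' (fun ζ => ζ l) fun _ k => k.1 l
  have hL : ∀ a l, ∀ y ∈ (K.Θ a).source,
      LEq (N + 1) (F.G l) y fun y => (K.lab a l).elim 1 fun j => K.Θ a y j := fun a l y hy => by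
    have h2 := (K.Θ a).open_source.mem_nhds hy
    cases h : K.lab a l with
    | none =>
      refine .of_chart ?_ (P277Z.hol_const 1 y) (at_chart y) fun k => absurd k one_ne_zero
      filter_upwards [h2] with x hx
      simp [K.snc a l x hx, h]
    | some j =>
      refine .of_chart ?_ (((K.co a).an y hy).hol j) (at_chart y) fun _ =>
        dd_ne (K.co a) hy (at_chart y) j
      filter_upwards [h2] with x hx
      simp [K.snc a l x hx, h]
  refine ⟨ρ, fun a l x => Q l (fun y => (K.lab a l).elim 1 fun j => K.Θ a y j) ((K.Θ a).symm x),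
    fun a l x hx => ?_, h1, fun a l y hy hy' => ?_⟩
  · rw [← K.tgt a] at hx
    have he := at_chart (n := N + 1) ((K.Θ a).symm x)
    have h2 := ((hQ l _ _ (hL a l _ ((K.Θ a).map_target hx))).1 _ he).comp x
      (((K.co a).inv x hx _ he).restrictScalars (𝕜 := ℝ)).contDiffAt
    refine (h2.congr_of_eventuallyEq ?_).contDiffWithinAt
    filter_upwards [((K.Θ a).continuousAt_symm hx).eventually (P277Z.At.left he)] with v hv
    simp only [Function.comp, hv]
  · rw [(hQ l _ y (hL a l y hy)).2 hy']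
    simp only [(K.Θ a).left_inv hy]
    cases K.lab a l <;> simp

end Vale.Agent.P301Z.Sn
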