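import Vale.Agent.P301Z.Sn.Fibr
import Vale.Agent.P301Z.Sn.Cov
import Vale.Agent.P301Z.Sn.Rho
import Vale.Agent.P301Z.Sn.Exa
import Vale.Agent.P301Z.Sn.Exg
import Vale.Agent.P301Z.Sn.Exm
import Vale.Agent.P301Z.Sn.Box
import Vale.Agent.P301Z.Sn.Lift
import Vale.Agent.P301Z.Key.Kb

/-!
# P301, block SNC: the theorems
-/

namespace Vale.Agent.P301Z.Sn

theorem ext : EXT := ext_of exa exg (exm_of box)

theorem model : MODEL := model_of (pot_of cov) rho ext Key.kb

theorem model2 : MODEL2 := model2_of (pot_of cov) rho ext Key.kb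

theorem fibr (h : Lat.LAT) : FIBR := fibr_of h model2

end Vale.Agent.P301Z.Sn
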