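import Vale.Agent.P301Z.Sn.Model2
import Vale.Agent.P301Z.Lat.Pk
import Vale.Agent.P301Z.Sk

/-!
# P301, block SNC: the fibres of a ray with their hyperkähler metrics are inputs of the block KEY
-/

open scoped Manifold ContDiff Topology ComplexOrder Matrix
open Set Filter Metric
open Vale.Agent.P272.K
open Vale.Agent.P272.K.INT (intX intX_congr)
open Vale.Agent.P281Z
open Vale.Agent.P299.D (pullM jacF)
open Vale.Agent.P301.H450 (IsHK det_rel)
open Vale.Agent.P301Z.Lat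

noncomputable section

namespace Vale.Agent.P301Z.Sn

/-- **FIBR** -/
def FIBR : Prop := ∀ (n r : ℕ) (B : BB n r) (F : Fr B) (k : Fin r → ℝ) (x : ℝ) (R : Ray F k x)
  (w : ∀ T, Fld (R.R T).Y.V) (lam : ℝ → ℝ), F.InP k →
  (∀ T, R.T₁ ≤ T → 0 < lam T ∧ (R.R T).Y.Kc (w T) (lam T • k) ∧ IsHK (R.R T).s (w T) 1) →
  (∀ T, R.T₁ ≤ T → lam T = 2 * T) ∧ Tendsto (fun T => Key.TT (R.A.τ (R.t T))) atTop atTop ∧
  ∃ (K : Cov R.A) (ψ : Fin K.A → Cm (n + n + 1) → ℝ) (φ : Fin K.A → Fin R.A.r → Cm (n + n + 1) → ℝ)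
    (Bm : Fin K.A → Matrix (Fin (n + n + 1)) (Fin (n + n)) ℤ) (C : ℝ), (K.model ψ φ Bm C).Good ∧
    ∀ᶠ T in atTop, ∃ Fb : Key.Fib (K.model ψ φ Bm C) (R.R T).Y.V.X (R.A.τ (R.t T)), Fb.w = w T ∧
      (∀ a y, y ∈ Fb.U a ↔ (R.R T).i y ∈ (K.Θ a).source ∧ K.Θ a ((R.R T).i y) ∈ ball 0 2) ∧
      ∀ a y, Fb.j a y = K.Θ a ((R.R T).i y)

namespace Fi

variable {n r : ℕ} {B : BB n r}

theorem star_p (F : Fr B) (τ : ℂ) : star (F.p τ) = F.p (star τ) := by
  funext i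
  simp [Fr.p, rc]

theorem q_pp (F : Fr B) (τ σ : ℂ) : qC B.q (F.p τ) (F.p σ) = -(F.e * (τ - σ) ^ 2 / 2) := by
  have hD : (F.D : ℂ) ≠ 0 := Complex.ofReal_ne_zero.2 F.Dpos.ne'
  simp only [Fr.p, sub_eq_add_neg, ← neg_smul, qC_add_l, qC_add_r, qC_smul_l, qC_smul_r, qC_rc,
    qR_comm B.q B.symm (zr F.m) (zr F.l), qR_comm B.q B.symm (zr F.v) (zr F.l),
    qR_comm B.q B.symm (zr F.v) (zr F.m), F.ll, F.lm, F.lv, F.mm, F.mv, F.vv]
  push_cast
  field_simp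
  ring

theorem q_re (F : Fr B) (x T : ℝ) : (qC B.q (F.p (x + T * Complex.I))
    (star (F.p (x + T * Complex.I)))).re = 2 * F.e * T ^ 2 := by
  have : qC B.q (F.p (x + T * Complex.I)) (star (F.p (x + T * Complex.I))) =
      ((2 * F.e * T ^ 2 : ℝ) : ℂ) := by
    rw [star_p, q_pp]
    simp only [star_add, star_mul', RCLike.star_def, Complex.conj_ofReal, Complex.conj_I]
    push_cast
    linear_combination (-2 * F.e * T ^ 2) * Complex.I_mul_I
  rw [this, Complex.ofReal_re]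

theorem det_eq {Y : MK B} {s w : Fld Y.V} {p : Fin r → ℂ} (hs : Y.Sym s p) (h : IsHK s w 1)
    (e : Chart (n + n) Y.V.X) (y : Y.V.X) (he : At e y) :
    (w e (e y)).det.re = ‖(s e (e y)).det‖ := by
  have h1 := det_rel (h.kahler.posDef e y he) (isUnit_iff_ne_zero.2 (hs.2 e y he)) (h.rel e y he)
  rw [one_pow, one_mul] at h1
  exact (pow_left_inj₀ (Complex.pos_iff.1 (h.kahler.posDef e y he).det_pos).1.le (norm_nonneg _)
    two_ne_zero).1 h1

end Fi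

open Fi in
theorem fibr_of (hL : LAT) (hM : MODEL2) : FIBR := by
  intro n r B F k x R w lam hk h
  have hq : ∀ T, qR B.q (lam T • k) (lam T • k) = lam T ^ 2 * F.e := fun T => by
    rw [qR_smul_l, qR_smul_r, hk.2.2.2]
    ring
  have hl : ∀ T, R.T₁ ≤ T → lam T = 2 * T := fun T hT => by
    obtain ⟨h1, h2, h3⟩ := h T hT
    have h4 := hL.hr.vols (⟨R.sym T hT, h2, by
      rw [hq]
      exact mul_pos (pow_pos h1 2) F.epos⟩ : (R.R T).Y.HK _ _ _ _)
    have hT0 := R.pos.trans_le hT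
    rw [← intX_congr (D := fun e z => (w T e z).det.re) (det_eq (R.sym T hT) h3),
      hL.rel.vol11 h2.2, hq, q_re] at h4
    have h5 := (pow_left_inj₀ (mul_pos (pow_pos h1 2) F.epos).le
      (by have := F.epos; positivity) B.npos.ne').1 (mul_left_cancel₀ B.Cpos.ne' h4)
    refine (pow_left_inj₀ h1.le (by positivity) two_ne_zero).1 (mul_right_cancel₀ F.epos.ne' ?_)
    rw [h5]
    ring
  obtain ⟨c, C₀, hc, hg⟩ := R.grow
  have hT : Tendsto (fun T => Key.TT (R.A.τ (R.t T))) atTop atTop :=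
    tendsto_atTop_mono' _ (hg.mono fun T hT => (by linarith [(abs_le.1 hT).1] :
      c * T + -C₀ ≤ Key.TT (R.A.τ (R.t T))))
      (tendsto_atTop_add_const_right _ (-C₀) (tendsto_id.const_mul_atTop hc))
  obtain ⟨C₁, a, hv⟩ := R.vol
  have hV : 0 < B.C * F.e ^ n := mul_pos B.Cpos (pow_pos F.epos n)
  have h4 : 0 < 4 / c := by positivity
  obtain ⟨K, ψ, φ, Bm, C, hG, hF⟩ := hM (n + n) R.A R.W R.U R.Q C₁
    (1 + c + 4 / c + B.C * F.e ^ n) a R.kah (by positivity) hv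
  refine ⟨hl, hT, K, ψ, φ, Bm, C, hG, ?_⟩
  have ht : Tendsto R.t atTop (𝓝[≠] R.A.o) := tendsto_nhdsWithin_iff.2 ⟨R.lim,
    (eventually_ge_atTop R.T₁).mono fun T hT e => R.off T hT (e ▸ R.A.mem)⟩
  filter_upwards [ht.eventually hF, R.cmp, hg, eventually_ge_atTop R.T₁,
    eventually_ge_atTop (2 * C₀ / c)] with T a1 ⟨j, j1, j2, j3⟩ a2 a3 a4
  obtain ⟨h1, h2, h3⟩ := h T a3
  have hT0 := R.pos.trans_le a3
  have h5 := R.kc T a3
  have h6 := hL.rel.add (lam T) 0 h5.2 h5.2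
  rw [zero_smul, add_zero] at h6
  obtain ⟨v, v1, v2⟩ := hL.ddc h2 (by
    rw [hq]
    exact mul_pos (pow_pos h1 2) F.epos) h2.2 h6
  rw [div_le_iff₀ hc] at a4
  obtain ⟨b1, b2⟩ := abs_le.1 a2
  refine a1 _ (R.R T).i (fun e z => ((R.R T).s e z).det) j (R.emb T a3) j1 j2 (fun e y he => ?_) j3
    (w T) v (lam T) 1 h2.1 v1 (fun e y he => by simpa [P301.H599.ddc] using v2 e y he)
    (fun e y he => by rw [one_mul, det_eq (R.sym T a3) h3 e y he]) (by linarith) ?_ ?_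
    ⟨_, (INT.IsKahler.isClosedForm h5.1).isDensity.isIntegral, ?_⟩
  · simp only [Matrix.det_apply']
    exact Finset.analyticAt_fun_sum _ fun σ _ => analyticAt_const.mul
      (Finset.analyticAt_fun_prod _ fun a _ => (R.sym T a3).1.1.holo e y he _ _)
  · rw [hl T a3]
    nlinarith [mul_pos (add_pos (add_pos one_pos h4) hV) hT0]
  · have h7 : c * T / 2 ≤ Key.TT (R.A.τ (R.t T)) := by linarith
    have h8 : 4 / c * (c * T / 2) = 2 * T := by
      field_simp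
      norm_num
    rw [hl T a3, ← h8]
    exact mul_le_mul (by linarith) h7 (by positivity) (by positivity)
  · rw [hL.rel.vol11 h5.2, hk.2.2.2]
    linarith

end Vale.Agent.P301Z.Sn
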