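import Vale.Agent.P301Z.Sn.Defs

/-!
# P301, block SNC: logarithmic growth of the volumes gives logarithmic forms
-/

open scoped Manifold ContDiff Topology ComplexOrder
open Set Filter Metric
open Vale.Agent.P272.K
open Vale.Agent.P277Z (Hol)
open Vale.Agent.P277Z.Slc (LEq Snc Ind dd tr)
open Vale.Agent.P281Z

noncomputable section

namespace Vale.Agent.P301Z.Sn

namespace ExtH

variable {N : ℕ} {Y κ : Type} [TopologicalSpace Y] [ChartedSpace (Cm N) Y]
  {h : κ → Y → ℂ} {e e' : Chart N Y} {y : Y}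

theorem dz_an {f : Cm N → ℂ} {z : Cm N} (hf : DifferentiableAt ℂ f z) (i : Fin N) :
    dz i f z = fderiv ℂ f z (Pi.single i 1) := by
  have h2 : (Pi.single i Complex.I : Cm N) = Complex.I • Pi.single i 1 := by
    rw [← Pi.single_smul]
    simp
  unfold dz
  rw [hf.fderiv_restrictScalars ℝ, h2]
  simp only [ContinuousLinearMap.coe_restrictScalars', map_smul, smul_eq_mul]
  linear_combination -(fderiv ℂ f z (Pi.single i 1) / 2) * Complex.I_mul_I

theorem jc_dd (hh : ∀ a, Hol N (h a) y) (he : At e y) (a : κ) (b : Fin N) :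
    jc h e y a b = dd (h a) e y (Pi.single b 1) := dz_an (hh a e he).differentiableAt b

variable [IsManifold 𝓘(ℂ, Cm N) ω Y]

theorem jc_chg (hh : ∀ a, Hol N (h a) y) (he : At e y) (he' : At e' y) :
    jc h e y = jc h e' y * jacM e e' y := by
  ext a b
  rw [jc_dd hh he, P277Z.Slc.dd_chart (hh a) he' he, Matrix.mul_apply, ← dfM_id he he',
    ContinuousLinearMap.comp_apply, ← Finset.univ_sum_single (tr e' e y (Pi.single b 1)), map_sum]
  refine Finset.sum_congr rfl fun c _ => ?_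
  rw [jc_dd hh he', dfM_apply, mul_comm, ← smul_eq_mul, ← map_smul, ← Pi.single_smul, smul_eq_mul,
    mul_one]
  rfl

theorem jc_cont [Finite κ] (hh : ∀ a, Hol N (h a) y) (he : At e y) :
    ContinuousAt (fun y => jc h e y) y := by
  refine continuousAt_pi.2 fun a => continuousAt_pi.2 fun b => ?_
  refine ((P277Z.Slc.dd_cont (hh a) he).clm_apply
    (continuousAt_const (y := (Pi.single b 1 : Cm N)))).congr ?_
  filter_upwards [eventually_all.2 fun a => (hh a).near, at_near he] with y' k1 k2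
  exact (jc_dd k1 k2 a b).symm

variable {F : Fam N} {W : Set F.C.X} {q : ℕ} (Q : Frm F W q) {t : F.C.X}

theorem chg (ht : t ∈ W) (e e' : Chart N (Q.Y t).X) (y : (Q.Y t).X) (he : At e y) (he' : At e' y) :
    Q.u t e (e y) = (jacM e e' y).det ^ q * Q.u t e' (e' y) := by
  have hi := Q.emb t ht
  obtain ⟨h, γ, h1, -, h3⟩ := Q.rel (Q.i t y) (by rw [hi.fib y]; exact ht)
  have h4 := h3.self_of_nhds t ht y rfl
  rw [h4 e he, h4 e' he', jc_chg (fun a => hi.hol.hol (h1 a)) he he', Matrix.det_mul]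
  ring

theorem cont (ht : t ∈ W) (e : Chart N (Q.Y t).X) (y : (Q.Y t).X) (he : At e y) :
    ContinuousAt (Q.u t e) (e y) := by
  have hi := Q.emb t ht
  obtain ⟨h, γ, h1, h2, h3⟩ := Q.rel (Q.i t y) (by rw [hi.fib y]; exact ht)
  have h4 : ContinuousAt (fun y => γ (Q.i t y) * (jc (fun a y => h a (Q.i t y)) e y).det ^ q) y :=
    (hi.hol.hol h2).continuousAt'.mul
      ((continuous_id.matrix_det.continuousAt.comp
        (jc_cont (fun a => hi.hol.hol (h1 a)) he)).pow q)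
  have h5 : ContinuousAt (fun z => γ (Q.i t (e.symm z)) *
      (jc (fun a y => h a (Q.i t y)) e (e.symm z)).det ^ q) (e y) :=
    ContinuousAt.comp (g := fun y => γ (Q.i t y) * (jc (fun a y => h a (Q.i t y)) e y).det ^ q)
      (by rw [he.left_inv]; exact h4) (e.continuousAt_symm he.mem_target)
  refine h5.congr ?_
  filter_upwards [at_ev he ((hi.hol.cont.continuousAt.eventually h3).and (at_near he)),
    he.nhds_target] with z k hz
  rw [← k.1 t ht _ rfl e k.2, e.right_inv hz]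

theorem log_le (a b : ℝ) : |a + b| ≤ (1 + |a|) * (1 + |b|) := by
  nlinarith [abs_add_le a b, abs_nonneg a, abs_nonneg b, mul_nonneg (abs_nonneg a) (abs_nonneg b)]

end ExtH

open ExtH

theorem ext_of (hA : EXA) (hG : EXG) (hM : EXM) : EXT := by
  intro N F K W Q B p hW
  have hS : ∀ᶠ t in 𝓝[≠] F.o, t ∉ F.S := by
    have h1 : (F.S \ {F.o})ᶜ ∈ 𝓝 F.o :=
      (F.fin.subset sdiff_subset).isClosed.isOpen_compl.mem_nhds fun h => h.2 rfl
    filter_upwards [mem_nhdsWithin_of_mem_nhds h1, self_mem_nhdsWithin] with t k1 k2 k3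
      using k1 ⟨k3, k2⟩
  obtain ⟨O, hO, hoO, hOW⟩ := mem_nhdsWithin.1 (hW.and hS)
  have hW' : IsOpen (O ∩ {F.o}ᶜ) := hO.inter isOpen_compl_singleton
  have hτ0 : F.τ F.o = 0 := F.leq.mem.2 F.mem
  let Q' : Frm F (O ∩ {F.o}ᶜ) 2 := ⟨Q.Y, Q.i, fun t ht => Q.emb t (hOW ht).1.1, Q.u, fun x hx => by
    obtain ⟨h, γ, h1, h2, h3⟩ := Q.rel x (hOW hx).1.1
    exact ⟨h, γ, h1, h2, h3.mono fun x' k t ht => k t (hOW ht).1.1⟩⟩
  have key : ∀ a (l : Fin (N + 1)), ∃ B' : ℝ, ∀ᶠ t in 𝓝[≠] F.o, K.m a l ≠ 0 →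
      ∀ y, Q.i t y ∈ (K.Θ a).source → K.Θ a (Q.i t y) ∈ ball 0 2 → ∀ e, At e y →
        ‖Q.u t e (e y)‖ * ‖lg (K.m a) l (K.Θ a (Q.i t y))‖ ^ 2 ≤
          B' * ‖(jc (fun j y => K.Θ a (Q.i t y) (l.succAbove j)) e y).det‖ ^ 2 := by
    intro a l
    by_cases hm : K.m a l = 0
    · exact ⟨0, .of_forall fun _ h => absurd hm h⟩
    obtain ⟨g, hg1, hg2⟩ := hG N F K _ 2 Q' a l hm hW'
      (disjoint_left.2 fun t ht => (hOW ht).2)
    obtain ⟨B1, hB1, hM⟩ := hM N F K a l hm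
    obtain ⟨δ, hδ, hδO⟩ := K.near O (hO.mem_nhds hoO)
    have hc := K.c0 a
    have hn : ∀ x ∈ (K.Θ a).source, ‖F.τ (F.f x)‖ = K.c a * ‖∏ j, K.Θ a x j ^ K.m a j‖ :=
      fun x hx => by rw [K.mon a x hx, norm_mul, Complex.norm_real, Real.norm_of_nonneg hc.le]
    obtain ⟨δ', B', hδ', hB'⟩ := hA (N + 1) (K.m a) g (δ / K.c a)
      (B1 * |B| * (1 + |Real.log (K.c a)|) ^ p) p (div_pos hδ hc) fun x hx h0 h1 => by
      have hx3 : x ∈ (K.Θ a).target := by
        rw [K.tgt]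
        exact ball_subset_ball (by norm_num) hx
      obtain ⟨x', hx', rfl⟩ : ∃ x' ∈ (K.Θ a).source, K.Θ a x' = x :=
        ⟨_, (K.Θ a).map_target hx3, (K.Θ a).right_inv hx3⟩
      have h2 := hn x' hx'
      have h3 : F.f x' ∈ O ∩ {F.o}ᶜ := by
        refine ⟨hδO _ (K.sub a x' hx') (by rw [h2, mul_comm]; exact (lt_div_iff₀ hc).1 h1),
          fun h => ?_⟩
        rw [show F.f x' = F.o from h, hτ0, norm_zero] at h2
        exact (mul_pos hc (norm_pos_iff.2 h0)).ne h2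
      refine ⟨hg1 x' hx' h3, ?_⟩
      obtain ⟨⟨hW1, I, hI, hI'⟩, hS1⟩ := hOW h3
      have hi := Q.emb _ hW1
      obtain ⟨y, hy⟩ := hi.ex (y := x') rfl
      have h4 := hM _ hS1 _ _ hi (Q.u _) g I hI' (cont Q hW1) (chg Q hW1)
        (fun y hy => ⟨hg1 _ hy (by rw [hi.fib y]; exact h3), fun e he => (hg2 _ h3 y hy e he).2⟩)
        y (hy.symm ▸ hx') (hy.symm ▸ hx)
      rw [hy] at h4
      rw [h2, Real.log_mul hc.ne' (norm_ne_zero_iff.2 h0)] at hI
      refine h4.trans ?_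
      rw [mul_assoc, mul_assoc, ← mul_pow]
      refine mul_le_mul_of_nonneg_left (hI.trans ?_) hB1
      exact mul_le_mul (le_abs_self B) (pow_le_pow_left₀ (abs_nonneg _) (log_le _ _) p)
        (by positivity) (abs_nonneg B)
    have h5 : ∀ᶠ t in 𝓝 F.o, ‖F.τ t‖ < K.c a * δ' :=
      F.leq.hol.continuousAt'.norm.eventually_lt continuousAt_const
        (by rw [hτ0, norm_zero]; exact mul_pos hc hδ')
    refine ⟨B', ?_⟩
    filter_upwards [mem_nhdsWithin_of_mem_nhds h5, mem_nhdsWithin_of_mem_nhds (hO.mem_nhds hoO),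
      self_mem_nhdsWithin] with t k1 k2 k3 _ y hy hy2 e he
    have hi := Q.emb t (hOW ⟨k2, k3⟩).1.1
    have h6 := hn _ hy
    have h7 := K.sub a _ hy
    rw [hi.fib y] at h6 h7
    have h8 : ∏ j, K.Θ a (Q.i t y) j ^ K.m a j ≠ 0 := fun h => by
      rw [h, norm_zero, mul_zero, norm_eq_zero] at h6
      exact (hOW ⟨k2, k3⟩).2 ((K.leq t h7).mem.1 h6)
    have h9 := hB' _ hy2 h8 (lt_of_mul_lt_mul_left (h6 ▸ k1) hc.le)
    have h10 := congrArg norm (hg2 t ⟨k2, k3⟩ y hy e he).2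
    rw [norm_mul, norm_mul, norm_pow, norm_pow] at h10
    exact h10.trans_le (mul_le_mul_of_nonneg_right h9 (by positivity))
  choose B' hB' using key
  refine ⟨∑ a, ∑ l, |B' a l|, ?_⟩
  filter_upwards [eventually_all.2 fun a => eventually_all.2 fun l => hB' a l]
    with t ht a l hm y hy hy2 e he
  refine (ht a l hm y hy hy2 e he).trans (mul_le_mul_of_nonneg_right ?_ (by positivity))
  exact (le_abs_self _).trans ((Finset.single_le_sum (f := fun l => |B' a l|)
    (fun _ _ => abs_nonneg _) (Finset.mem_univ l)).trans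
      (Finset.single_le_sum (f := fun a => ∑ l, |B' a l|)
        (fun _ _ => Finset.sum_nonneg fun _ _ => abs_nonneg _) (Finset.mem_univ a)))

end Vale.Agent.P301Z.Sn
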