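import Vale.Agent.P272.K.INT.Dens

/-!
# P301Z, block SNC: the integral of a density over an injective holomorphic parametrisation
-/

open scoped Manifold ContDiff Topology ENNReal
open Set Filter MeasureTheory
open Vale.Agent.P272.K Vale.Agent.P272.K.INT

namespace Vale.Agent.P301Z.Sn.Ip

variable {n : ℕ} {X : Type*} [TopologicalSpace X] [ChartedSpace (Cm n) X]
  [IsManifold 𝓘(ℂ, Cm n) ω X] [T2Space X] [CompactSpace X]

theorem intp {D : Chart n X → Cm n → ℝ} (h0 : ∀ e x, At e x → 0 ≤ D e (e x)) (hD : IsDensity D)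
    {φ : Cm n → X} {R : Set (Cm n)} (hR : IsOpen R) (hc : ContinuousOn φ R)
    (ha : ∀ z ∈ R, ∀ e : Chart n X, At e (φ z) → DifferentiableAt ℂ (fun w => e (φ w)) z)
    (hi : InjOn φ R) {F : Cm n → ℝ≥0∞} (hm : AEMeasurable F (volume.restrict R))
    (hF : ∀ z ∈ R, ∀ e : Chart n X, At e (φ z) → F z ≤ ENNReal.ofReal (D e (e (φ z)) *
      ‖(Matrix.of fun p i => dz i (fun w => e (φ w) p) z : Matrix (Fin n) (Fin n) ℂ).det‖ ^ 2)) :
    ∫⁻ z in R, F z ≤ ENNReal.ofReal (intX D) := by
  set P := part n X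
  have hn : ∀ i, ∀ z ∈ (P.e i).target, 0 ≤ P.ρ i ((P.e i).symm z) * D (P.e i) z := fun i z hz =>
    mul_nonneg (P.nonneg i _) (by
      have := h0 _ _ ⟨P.mem i, (P.e i).map_target hz⟩
      rwa [(P.e i).right_inv hz] at this)
  have h1 : ∀ z, F z = ∑ i, ENNReal.ofReal (P.ρ i (φ z)) * F z := fun z => by
    rw [← Finset.sum_mul, ← ENNReal.ofReal_sum_of_nonneg fun i _ => P.nonneg i _, P.sum,
      ENNReal.ofReal_one, one_mul]
  rw [lintegral_congr h1, lintegral_finsetSum' (f := fun i z => ENNReal.ofReal (P.ρ i (φ z)) * F z) _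
    fun i _ =>
    (((P.cont i).comp_continuousOn hc).aemeasurable hR.measurableSet).ennreal_ofReal.mul hm, intX,
    ENNReal.ofReal_sum_of_nonneg fun i _ => setIntegral_nonneg (P.e i).open_target.measurableSet
      (hn i)]
  refine Finset.sum_le_sum fun i _ => ?_
  rw [ofReal_integral_eq_lintegral_ofReal (integrableOn_part P hD i)
    ((ae_restrict_iff' (P.e i).open_target.measurableSet).2 (Eventually.of_forall (hn i)))]
  set e := P.e i
  have hO : IsOpen (R ∩ φ ⁻¹' e.source) := hc.isOpen_inter_preimage hR e.open_source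
  refine le_trans ?_ (lintegral_mono_set (s := (fun w => e (φ w)) '' (R ∩ φ ⁻¹' e.source))
    (image_subset_iff.2 fun z hz => e.map_source hz.2))
  rw [lintegral_image_eq_lintegral_abs_det_fderiv_mul volume hO.measurableSet
    (fun z hz => ((ha z hz.1 e ⟨P.mem i, hz.2⟩).restrictScalars ℝ).hasFDerivAt.hasFDerivWithinAt)
    (fun z hz w hw k => hi hz.1 hw.1 (e.injOn hz.2 hw.2 k)), ← lintegral_indicator hO.measurableSet]
  refine (setLIntegral_mono' hR.measurableSet fun z hz => ?_).trans (setLIntegral_le_lintegral _ _)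
  by_cases k : φ z ∈ e.source
  · rw [indicator_of_mem (show z ∈ R ∩ φ ⁻¹' e.source from ⟨hz, k⟩), e.left_inv k,
      det_fderiv_real (ha z hz e ⟨P.mem i, k⟩), abs_of_nonneg (by positivity),
      ← ENNReal.ofReal_mul (by positivity), mul_left_comm, ENNReal.ofReal_mul (P.nonneg i _),
      mul_comm (_ ^ 2)]
    exact mul_le_mul_right (hF z hz e ⟨P.mem i, k⟩) _
  · rw [image_eq_zero_of_notMem_tsupport fun h => k (P.supp i h), ENNReal.ofReal_zero, zero_mul]
    exact zero_le

end Vale.Agent.P301Z.Sn.Ip
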