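import Vale.Agent.P301Z.Sn.Defs
import Vale.Agent.P301Z.Key.Defs

/-!
# P301, block SNC: the input of the block KEY (statement)
-/

open scoped Manifold ContDiff Topology ComplexOrder
open Set Filter Metric
open Vale.Agent.P272.K
open Vale.Agent.P281Z
open Vale.Agent.P299.D (FormM pullM)

noncomputable section

namespace Vale.Agent.P301Z.Sn

/-- the model given by a covering -/
def Cov.model {N : ℕ} {F : Fam N} (K : Cov F) (ψ : Fin K.A → Cm (N + 1) → ℝ)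
    (φ : Fin K.A → Fin F.r → Cm (N + 1) → ℝ) (B : Fin K.A → Matrix (Fin (N + 1)) (Fin N) ℤ)
    (C : ℝ) : Key.Model N := ⟨K.A, F.r, K.m, fun a => K.c a, ψ, φ, K.lab, B, C⟩

/-- **MODEL**: the fibres near `o`, with metrics whose volume form is `κ |u|` -/
def MODEL : Prop := ∀ (N : ℕ) (F : Fam N) (χ : FormM (N + 1) F.V.X) (W : Set F.C.X)
  (Q : Frm F W 2) (B B₁ : ℝ) (p : ℕ), IsKahler χ → 0 < B₁ →
  (∀ᶠ t in 𝓝[≠] F.o, t ∈ W ∧ ∃ I, I ≤ B * |Real.log ‖F.τ t‖| ^ p ∧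
    IsIntegral (fun (e : Chart N (Q.Y t).X) z => ‖Q.u t e z‖) I) →
  ∃ (K : Cov F) (ψ : Fin K.A → Cm (N + 1) → ℝ) (φ : Fin K.A → Fin F.r → Cm (N + 1) → ℝ)
    (Bm : Fin K.A → Matrix (Fin (N + 1)) (Fin N) ℤ) (C : ℝ), (K.model ψ φ Bm C).Good ∧
    ∀ᶠ t in 𝓝[≠] F.o, ∀ (w : Key.Fm N (Q.Y t).X) (v : (Q.Y t).X → ℝ) (lam κ : ℝ), IsKahler w →
      SmoothFn (n := N) v → (∀ e y, At e y → w e (e y) = (lam : ℂ) • pullM (Q.i t) χ e (e y) +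
        cHess (fun z => v (e.symm z)) (e y)) →
      (∀ e y, At e y → (w e (e y)).det.re = κ * ‖Q.u t e (e y)‖) → κ ≤ B₁ →
      Key.TT (F.τ t) ≤ B₁ * lam → lam ≤ B₁ * Key.TT (F.τ t) →
      (∃ I, IsIntegral (fun (e : Chart N (Q.Y t).X) z => (pullM (Q.i t) χ e z).det.re) I ∧ I ≤ B₁) →
      ∃ Fb : Key.Fib (K.model ψ φ Bm C) (Q.Y t).X (F.τ t), Fb.w = w ∧
        (∀ a y, y ∈ Fb.U a ↔ Q.i t y ∈ (K.Θ a).source ∧ K.Θ a (Q.i t y) ∈ ball 0 2) ∧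
        ∀ a y, Fb.j a y = K.Θ a (Q.i t y)

end Vale.Agent.P301Z.Sn
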