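import Vale.Agent.P301Z.Sn.MDefs
import Vale.Agent.P301Z.Sn.Ext
import Vale.Agent.P301Z.Sn.Resv

/-!
# P301, block SNC: the input of the block KEY
-/

open scoped Manifold ContDiff Topology ComplexOrder
open Set Filter Metric
open Vale.Agent.P272.K
open Vale.Agent.P277Z (Hol at_chart)
open Vale.Agent.P277Z.Slc (LEq dd)
open Vale.Agent.P281Z
open Vale.Agent.P299.D (FormM pullM jacF)
open Vale.Agent.P299.H956 (pullM_eq)
open Vale.Agent.P284Y.Lib (two_le_inf)

noncomputable section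

namespace Vale.Agent.P301Z.Sn

namespace Md

theorem jc_an {N : ℕ} {Y κ : Type} [TopologicalSpace Y] [ChartedSpace (Cm N) Y] [Finite κ]
    {h : κ → Y → ℂ} {e : Chart N Y} {y : Y} (hh : ∀ a, Hol N (h a) y) (he : At e y) (a : κ)
    (b : Fin N) : AnalyticAt ℂ (fun z => jc h e (e.symm z) a b) (e y) := by
  refine (((ContinuousLinearMap.apply ℂ ℂ (Pi.single b 1 : Cm N)).analyticAt _).fun_comp
    (hh a e he).fderiv).congr ?_
  filter_upwards [(hh a e he).eventually_analyticAt, e.open_target.mem_nhds he.mem_target]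
    with z h1 h2
  rw [jc, Matrix.of_apply, e.right_inv h2, ExtH.dz_an h1.differentiableAt]
  rfl

/-- the sections are holomorphic -/
theorem u_an {N q : ℕ} {F : Fam N} {W : Set F.C.X} (Q : Frm F W q) {t : F.C.X} (ht : t ∈ W)
    {e : Chart N (Q.Y t).X} {y : (Q.Y t).X} (he : At e y) : AnalyticAt ℂ (Q.u t e) (e y) := by
  have hi := Q.emb t ht
  obtain ⟨h, γ, h1, h2, h3⟩ := Q.rel (Q.i t y) (by rw [hi.fib y]; exact ht)
  have h4 : AnalyticAt ℂ (fun z => (jc (fun a y => h a (Q.i t y)) e (e.symm z)).det) (e y) := by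
    simp only [Matrix.det_apply']
    exact Finset.analyticAt_fun_sum _ fun σ _ => analyticAt_const.mul
      (Finset.analyticAt_fun_prod _ fun a _ => jc_an (fun a => hi.hol.hol (h1 a)) he _ _)
  refine ((hi.hol.hol h2 e he).mul (h4.pow q)).congr ?_
  filter_upwards [at_ev he ((hi.hol.cont.continuousAt.eventually h3).and (at_near he)),
    he.nhds_target] with z k hz
  rw [Pi.mul_apply, Pi.pow_apply, ← k.1 t ht _ rfl e k.2, e.right_inv hz]

theorem wt_eq {N : ℕ} (m : Fin (N + 1) → ℕ) (l : Fin (N + 1)) (x : Cm (N + 1)) :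
    ∏ j : Fin N, (if 1 ≤ m (l.succAbove j) then ‖x (l.succAbove j)‖ ^ 2 else 1) =
      ‖lg m l x‖ ^ 2 := by
  rw [lg, norm_prod, ← Finset.prod_pow, Finset.prod_filter, Fin.prod_univ_succAbove _ l]
  simp [Nat.one_le_iff_ne_zero]

theorem tau0 {N : ℕ} (F : Fam N) : Tendsto F.τ (𝓝 F.o) (𝓝 0) :=
  F.leq.mem.2 F.mem ▸ F.leq.hol.cont

theorem iso {N : ℕ} (F : Fam N) : ∀ᶠ t in 𝓝[≠] F.o, t ∉ F.S := by
  filter_upwards [nhdsWithin_le_nhds ((F.fin.subset (t := F.S \ {F.o})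
    sdiff_subset).isClosed.isOpen_compl.mem_nhds fun h => h.2 rfl), self_mem_nhdsWithin]
    with t h1 h2 h3 using h1 ⟨h3, h2⟩

end Md

open Md in
theorem model_of (hP : POT) (hR : RHO) (hE : EXT) (hK : Key.KB) : MODEL := by
  intro N F χ W Q B B₁ p hχ hB hV
  obtain ⟨K, ψ, p1, p2⟩ := hP N F χ hχ
  obtain ⟨ρ, φ, r1, -, r3⟩ := hR N F K
  obtain ⟨B', hB'⟩ := hE N F K W Q B p hV
  choose Bm hBm using fun a => hK N (K.m a) ((K.ne a).imp fun _ => Nat.one_le_iff_ne_zero.2)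
  have s23 : ball (0 : Cm (N + 1)) 2 ⊆ ball 0 3 := ball_subset_ball (by norm_num)
  have hC : B₁ ≤ B₁ * (1 + |B'|) := le_mul_of_one_le_right hB.le (by linarith [abs_nonneg B'])
  refine ⟨K, ψ, φ, Bm, B₁ * (1 + |B'|), ⟨hB.trans_le hC, fun a =>
    Complex.ofReal_ne_zero.2 (K.c0 a).ne', fun a => (K.ne a).imp fun _ => Nat.one_le_iff_ne_zero.2,
    fun a x hx => (p1 a x (s23 hx)).1, fun a x hx => (p1 a x (s23 hx)).2, fun a i x hx =>
      (r1 a i).contDiffAt (isOpen_ball.mem_nhds (s23 hx)),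
    fun a l => Nat.one_le_iff_ne_zero.trans (K.lab_iff a l), fun a _ => hBm a⟩, ?_⟩
  filter_upwards [hV, hB', iso F, nhdsWithin_le_nhds K.cover,
    nhdsWithin_le_nhds (K.opn.mem_nhds K.mem),
    nhdsWithin_le_nhds ((tau0 F).norm.eventually (ge_mem_nhds (norm_zero.trans_lt one_pos)))]
    with t t1 t2 t3 t4 t5 t6 w v lam κ w1 w2 w3 w4 w5 w6 w7 w8
  have hi := Q.emb t t1.1
  have hT : 0 ≤ Key.TT (F.τ t) := neg_nonneg.2 (Real.log_nonpos (norm_nonneg _) t6)
  have hl : 0 ≤ lam := nonneg_of_mul_nonneg_right (hT.trans w6) hB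
  have hj : ∀ a y, Q.i t y ∈ (K.Θ a).source → AnV N (fun y => K.Θ a (Q.i t y)) y := fun a y hy =>
    AnV.pi fun l => hi.hol.hol (((K.co a).an _ hy).hol l)
  obtain ⟨I, i1, i2⟩ := w8
  refine ⟨⟨fun a => {y | Q.i t y ∈ (K.Θ a).source ∧ K.Θ a (Q.i t y) ∈ ball 0 2},
    fun a y => K.Θ a (Q.i t y), pullM (Q.i t) χ, w, v, lam, fun l y => ρ l (Q.i t y), fun a => ?_,
    fun a e y he hy => (hj a y hy.1 e he).contDiffAt, fun a y hy y' hy' h =>
      hi.inj ((K.Θ a).injOn hy.1 hy'.1 h), fun a => ?_, fun y => ?_,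
    kah_of_imm hi.hol hi.imm hχ, fun a e y he hy => ?_, fun a l y hy => r3 a l _ hy.1 fun h =>
      t3 (hi.fib y ▸ (F.bad _).2 ⟨l, h⟩), w1, w2, w3, fun e y he => ?_,
    w6.trans (mul_le_mul_of_nonneg_right hC hl), w7.trans (mul_le_mul_of_nonneg_right hC hT),
    ⟨I, i1, i2.trans hC⟩, fun a e y l he hy _ hm => ?_⟩, rfl, fun _ _ => Iff.rfl, fun _ _ => rfl⟩
  · exact ((K.Θ a).isOpen_inter_preimage isOpen_ball).preimage hi.hol.cont
  · refine Set.ext fun x => ⟨?_, fun hx => ?_⟩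
    · rintro ⟨y, hy, rfl⟩
      exact ⟨hy.2, (K.mon a _ hy.1).symm.trans (by rw [hi.fib y])⟩
    · have h1 : x ∈ (K.Θ a).target := K.tgt a ▸ s23 hx.1
      have h2 := (K.Θ a).map_target h1
      obtain ⟨y, hy⟩ := hi.ex (y := (K.Θ a).symm x) (K.inj (K.sub a _ h2) t5
        ((K.mon a _ h2).trans (by rw [(K.Θ a).right_inv h1]; exact hx.2)))
      have h3 : K.Θ a (Q.i t y) = x := by rw [hy, (K.Θ a).right_inv h1]
      exact ⟨y, ⟨hy ▸ h2, h3 ▸ hx.1⟩, h3⟩
  · obtain ⟨a, h1, h2⟩ := t4 _ (hi.fib y)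
    exact ⟨a, ⟨h1, ball_subset_ball (by norm_num) h2⟩, h2⟩
  · have hc := at_chart (n := N + 1) (Q.i t y)
    have h1 := Rv.pull_pot hi.hol he hc (p := fun x => ψ a (K.Θ a x)) (ContDiffAt.comp
      (f := fun z => K.Θ a ((chartAt (Cm (N + 1)) (Q.i t y)).symm z)) _
      (by rw [hc.left_inv]; exact (p1 a _ (s23 hy.2)).1)
      (((K.co a).an _ hy.1 _ hc).restrictScalars (𝕜 := ℝ)).contDiffAt)
    rw [pullM_eq hχ.isForm (hi.hol y) he hc, p2 a _ _ hc hy.1]
    exact h1.2.symm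
  · have pos : ∀ y, At e y → 0 < κ * ‖Q.u t e (e y)‖ := fun y he =>
      w4 e y he ▸ (Complex.pos_iff.1 (w1.posDef e y he).det_pos).1
    have h0 := right_ne_zero_of_mul (pos y he).ne'
    have h1 : (fun z => Real.log (w e z).det.re) =ᶠ[𝓝 (e y)]
        fun z => Real.log κ + 2⁻¹ * Real.log (‖Q.u t e z‖ ^ 2) := by
      filter_upwards [he.nhds_target] with z hz
      have h2 := At.of_target he.1 hz
      have h3 := w4 e _ h2
      have h4 := (pos _ h2).ne'
      rw [e.right_inv hz] at h3 h4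
      rw [h3, Real.log_mul (left_ne_zero_of_mul h4) (right_ne_zero_of_mul h4), Real.log_pow]
      push_cast
      ring
    have h2 := u_an Q t1.1 he
    have h3 : ContDiffAt ℝ 2 (fun z => Real.log (‖Q.u t e z‖ ^ 2)) (e y) :=
      ((h2.restrictScalars (𝕜 := ℝ)).contDiffAt.norm_sq ℝ).log (pow_ne_zero 2 h0)
    rw [cHess_congr h1, cHess_add contDiffAt_const (contDiffAt_const.mul h3),
      cHess_const_mul _ h3, cHess_log_norm_sq h2.contDiffAt (norm_ne_zero_iff.1 h0), smul_zero,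
      add_zero]
    have : ∀ (c : ℂ) (j : Fin N), dzb j (fun _ => c) = fun _ => 0 :=
      fun c j => funext fun z => by simp [dzb]
    ext i j
    simp [cHess, dz, this]
  · have h1 := t2 a l (Nat.one_le_iff_ne_zero.1 hm) y hy.1 hy.2 e he
    have h2 := wt_eq (K.m a) l (K.Θ a (Q.i t y))
    refine le_of_eq_of_le (b := κ * (‖Q.u t e (e y)‖ * ‖lg (K.m a) l (K.Θ a (Q.i t y))‖ ^ 2))
      (by rw [w4 e y he, ← h2, mul_assoc]; rfl) ?_
    refine (mul_le_mul_of_nonneg_right w5 (by positivity)).trans ?_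
    refine le_of_le_of_eq (mul_le_mul_of_nonneg_left (h1.trans (mul_le_mul_of_nonneg_right
      ((le_abs_self B').trans (le_add_of_nonneg_left zero_le_one)) (by positivity))) hB.le) ?_
    rw [← mul_assoc]
    rfl

end Vale.Agent.P301Z.Sn
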