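import Vale.Agent.P301Z.Sn.Model

/-!
# P301, block SNC: the input of the block KEY, for any parametrisation of the fibres
-/

open scoped Manifold ContDiff Topology ComplexOrder
open Set Filter Metric
open Vale.Agent.P272.K
open Vale.Agent.P277Z (Hol at_chart)
open Vale.Agent.P281Z
open Vale.Agent.P299.D (FormM pullM jacF)
open Vale.Agent.P299.H956 (pullM_eq)

noncomputable section

namespace Vale.Agent.P301Z.Sn

/-- **MODEL2** -/
def MODEL2 : Prop := ∀ (N : ℕ) (F : Fam N) (χ : FormM (N + 1) F.V.X) (W : Set F.C.X)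
  (Q : Frm F W 2) (B B₁ : ℝ) (p : ℕ), IsKahler χ → 0 < B₁ →
  (∀ᶠ t in 𝓝[≠] F.o, t ∈ W ∧ ∃ I, I ≤ B * |Real.log ‖F.τ t‖| ^ p ∧
    IsIntegral (fun (e : Chart N (Q.Y t).X) z => ‖Q.u t e z‖) I) →
  ∃ (K : Cov F) (ψ : Fin K.A → Cm (N + 1) → ℝ) (φ : Fin K.A → Fin F.r → Cm (N + 1) → ℝ)
    (Bm : Fin K.A → Matrix (Fin (N + 1)) (Fin N) ℤ) (C : ℝ), (K.model ψ φ Bm C).Good ∧
    ∀ᶠ t in 𝓝[≠] F.o, ∀ (Y : Mf N) (i : Y.X → F.V.X) (u : Chart N Y.X → Cm N → ℂ)
      (j : Y.X → (Q.Y t).X), Emb N (N + 1) i (F.f ⁻¹' {t}) → HolM N N j →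
      (∀ y, Q.i t (j y) = i y) → (∀ e y, At e y → AnalyticAt ℂ (u e) (e y)) →
      (∀ e e' y, At e y → At e' (j y) →
        u e (e y) = (jacF j e e' y).det ^ 2 * Q.u t e' (e' (j y))) →
      ∀ (w : Key.Fm N Y.X) (v : Y.X → ℝ) (lam κ : ℝ), IsKahler w →
      SmoothFn (n := N) v → (∀ e y, At e y → w e (e y) = (lam : ℂ) • pullM i χ e (e y) +
        cHess (fun z => v (e.symm z)) (e y)) →
      (∀ e y, At e y → (w e (e y)).det.re = κ * ‖u e (e y)‖) → κ ≤ B₁ →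
      Key.TT (F.τ t) ≤ B₁ * lam → lam ≤ B₁ * Key.TT (F.τ t) →
      (∃ I, IsIntegral (fun (e : Chart N Y.X) z => (pullM i χ e z).det.re) I ∧ I ≤ B₁) →
      ∃ Fb : Key.Fib (K.model ψ φ Bm C) Y.X (F.τ t), Fb.w = w ∧
        (∀ a y, y ∈ Fb.U a ↔ i y ∈ (K.Θ a).source ∧ K.Θ a (i y) ∈ ball 0 2) ∧
        ∀ a y, Fb.j a y = K.Θ a (i y)

theorem Md.jc_comp {N : ℕ} {Y Z κ : Type} [TopologicalSpace Y] [ChartedSpace (Cm N) Y]
    [IsManifold 𝓘(ℂ, Cm N) ω Y] [TopologicalSpace Z] [ChartedSpace (Cm N) Z]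
    [IsManifold 𝓘(ℂ, Cm N) ω Z] {h : κ → Z → ℂ} {j : Y → Z} {e : Chart N Y} {e' : Chart N Z} {y : Y}
    (hj : HolM N N j) (hh : ∀ a, Hol N (h a) (j y)) (he : At e y) (he' : At e' (j y)) :
    jc (fun a y => h a (j y)) e y = jc h e' (j y) * jacF j e e' y := by
  ext a b
  rw [ExtH.jc_dd (fun a => hj.hol (hh a)) he, dd_comp (hh a) (hj.at y) he he', Matrix.mul_apply,
    ContinuousLinearMap.comp_apply, ← Finset.univ_sum_single (df j e e' y (Pi.single b 1)), map_sum]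
  refine Finset.sum_congr rfl fun c _ => ?_
  rw [ExtH.jc_dd hh he', jacF, Matrix.of_apply, ExtH.dz_an
    (analyticAt_pi_iff.1 ((hj.at y).an he he') c).differentiableAt, mul_comm, ← smul_eq_mul,
    ← map_smul, ← Pi.single_smul, smul_eq_mul, mul_one, df_apply (hj.at y) he he']
  rfl

open Md in
theorem model2_of (hP : POT) (hR : RHO) (hE : EXT) (hK : Key.KB) : MODEL2 := by
  intro N F χ W Q B B₁ p hχ hB hV
  obtain ⟨K, ψ, p1, p2⟩ := hP N F χ hχ
  obtain ⟨ρ, φ, r1, -, r3⟩ := hR N F K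
  obtain ⟨B', hB'⟩ := hE N F K W Q B p hV
  choose Bm hBm using fun a => hK N (K.m a) ((K.ne a).imp fun _ => Nat.one_le_iff_ne_zero.2)
  have s23 : ball (0 : Cm (N + 1)) 2 ⊆ ball 0 3 := ball_subset_ball (by norm_num)
  have hC : B₁ ≤ B₁ * (1 + |B'|) := le_mul_of_one_le_right hB.le (by linarith [abs_nonneg B'])
  refine ⟨K, ψ, φ, Bm, B₁ * (1 + |B'|), ⟨hB.trans_le hC, fun a =>
    Complex.ofReal_ne_zero.2 (K.c0 a).ne', fun a => (K.ne a).imp fun _ => Nat.one_le_iff_ne_zero.2,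
    fun a x hx => (p1 a x (s23 hx)).1, fun a x hx => (p1 a x (s23 hx)).2, fun a i x hx =>
      (r1 a i).contDiffAt (isOpen_ball.mem_nhds (s23 hx)),
    fun a l => Nat.one_le_iff_ne_zero.trans (K.lab_iff a l), fun a _ => hBm a⟩, ?_⟩
  filter_upwards [hV, hB', iso F, nhdsWithin_le_nhds K.cover,
    nhdsWithin_le_nhds (K.opn.mem_nhds K.mem),
    nhdsWithin_le_nhds ((tau0 F).norm.eventually (ge_mem_nhds (norm_zero.trans_lt one_pos)))]
    with t t1 t2 t3 t4 t5 t6 Y i u j hi j1 j2 j3 j4 w v lam κ w1 w2 w3 w4 w5 w6 w7 w8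
  have hT : 0 ≤ Key.TT (F.τ t) := neg_nonneg.2 (Real.log_nonpos (norm_nonneg _) t6)
  have hl : 0 ≤ lam := nonneg_of_mul_nonneg_right (hT.trans w6) hB
  have hj : ∀ a y, i y ∈ (K.Θ a).source → AnV N (fun y => K.Θ a (i y)) y := fun a y hy =>
    AnV.pi fun l => hi.hol.hol (((K.co a).an _ hy).hol l)
  obtain ⟨I, i1, i2⟩ := w8
  refine ⟨⟨fun a => {y | i y ∈ (K.Θ a).source ∧ K.Θ a (i y) ∈ ball 0 2},
    fun a y => K.Θ a (i y), pullM i χ, w, v, lam, fun l y => ρ l (i y), fun a => ?_,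
    fun a e y he hy => (hj a y hy.1 e he).contDiffAt, fun a y hy y' hy' h =>
      hi.inj ((K.Θ a).injOn hy.1 hy'.1 h), fun a => ?_, fun y => ?_,
    kah_of_imm hi.hol hi.imm hχ, fun a e y he hy => ?_, fun a l y hy => r3 a l _ hy.1 fun h =>
      t3 (hi.fib y ▸ (F.bad _).2 ⟨l, h⟩), w1, w2, w3, fun e y he => ?_,
    w6.trans (mul_le_mul_of_nonneg_right hC hl), w7.trans (mul_le_mul_of_nonneg_right hC hT),
    ⟨I, i1, i2.trans hC⟩, fun a e y l he hy _ hm => ?_⟩, rfl, fun _ _ => Iff.rfl, fun _ _ => rfl⟩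
  · exact ((K.Θ a).isOpen_inter_preimage isOpen_ball).preimage hi.hol.cont
  · refine Set.ext fun x => ⟨?_, fun hx => ?_⟩
    · rintro ⟨y, hy, rfl⟩
      exact ⟨hy.2, (K.mon a _ hy.1).symm.trans (by rw [hi.fib y])⟩
    · have h1 : x ∈ (K.Θ a).target := K.tgt a ▸ s23 hx.1
      have h2 := (K.Θ a).map_target h1
      obtain ⟨y, hy⟩ := hi.ex (y := (K.Θ a).symm x) (K.inj (K.sub a _ h2) t5
        ((K.mon a _ h2).trans (by rw [(K.Θ a).right_inv h1]; exact hx.2)))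
      have h3 : K.Θ a (i y) = x := by rw [hy, (K.Θ a).right_inv h1]
      exact ⟨y, ⟨hy ▸ h2, h3 ▸ hx.1⟩, h3⟩
  · obtain ⟨a, h1, h2⟩ := t4 _ (hi.fib y)
    exact ⟨a, ⟨h1, ball_subset_ball (by norm_num) h2⟩, h2⟩
  · have hc := at_chart (n := N + 1) (i y)
    have h1 := Rv.pull_pot hi.hol he hc (p := fun x => ψ a (K.Θ a x)) (ContDiffAt.comp
      (f := fun z => K.Θ a ((chartAt (Cm (N + 1)) (i y)).symm z)) _
      (by rw [hc.left_inv]; exact (p1 a _ (s23 hy.2)).1)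
      (((K.co a).an _ hy.1 _ hc).restrictScalars (𝕜 := ℝ)).contDiffAt)
    rw [pullM_eq hχ.isForm (hi.hol y) he hc, p2 a _ _ hc hy.1]
    exact h1.2.symm
  · have pos : ∀ y, At e y → 0 < κ * ‖u e (e y)‖ := fun y he =>
      w4 e y he ▸ (Complex.pos_iff.1 (w1.posDef e y he).det_pos).1
    have h0 := right_ne_zero_of_mul (pos y he).ne'
    have h1 : (fun z => Real.log (w e z).det.re) =ᶠ[𝓝 (e y)]
        fun z => Real.log κ + 2⁻¹ * Real.log (‖u e z‖ ^ 2) := by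
      filter_upwards [he.nhds_target] with z hz
      have h2 := At.of_target he.1 hz
      have h3 := w4 e _ h2
      have h4 := (pos _ h2).ne'
      rw [e.right_inv hz] at h3 h4
      rw [h3, Real.log_mul (left_ne_zero_of_mul h4) (right_ne_zero_of_mul h4), Real.log_pow]
      push_cast
      ring
    have h2 := j3 e y he
    have h3 : ContDiffAt ℝ 2 (fun z => Real.log (‖u e z‖ ^ 2)) (e y) :=
      ((h2.restrictScalars (𝕜 := ℝ)).contDiffAt.norm_sq ℝ).log (pow_ne_zero 2 h0)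
    rw [cHess_congr h1, cHess_add contDiffAt_const (contDiffAt_const.mul h3),
      cHess_const_mul _ h3, cHess_log_norm_sq h2.contDiffAt (norm_ne_zero_iff.1 h0), smul_zero,
      add_zero]
    have : ∀ (c : ℂ) (j : Fin N), dzb j (fun _ => c) = fun _ => 0 :=
      fun c j => funext fun z => by simp [dzb]
    ext i j
    simp [cHess, dz, this]
  · have hc := at_chart (n := N) (j y)
    have h0 := t2 a l (Nat.one_le_iff_ne_zero.1 hm) (j y) (j2 y ▸ hy.1) (j2 y ▸ hy.2) _ hc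
    have h1 : ‖u e (e y)‖ * ‖lg (K.m a) l (K.Θ a (i y))‖ ^ 2 ≤
        B' * ‖(jc (fun c y => K.Θ a (i y) (l.succAbove c)) e y).det‖ ^ 2 := by
      have := jc_comp (h := fun c y => K.Θ a (Q.i t y) (l.succAbove c)) j1 (fun c =>
        (Q.emb t t1.1).hol.hol (((K.co a).an _ (j2 y ▸ hy.1)).hol _)) he hc
      simp only [j2] at this h0
      rw [this, j4 e _ y he hc, Matrix.det_mul, norm_mul, norm_mul, norm_pow, mul_pow]
      nlinarith [mul_le_mul_of_nonneg_left h0 (sq_nonneg ‖(jacF j e (chartAt (Cm N) (j y)) y).det‖)]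
    have h2 := wt_eq (K.m a) l (K.Θ a (i y))
    refine le_of_eq_of_le (b := κ * (‖u e (e y)‖ * ‖lg (K.m a) l (K.Θ a (i y))‖ ^ 2))
      (by rw [w4 e y he, ← h2, mul_assoc]; rfl) ?_
    refine (mul_le_mul_of_nonneg_right w5 (by positivity)).trans ?_
    refine le_of_le_of_eq (mul_le_mul_of_nonneg_left (h1.trans (mul_le_mul_of_nonneg_right
      ((le_abs_self B').trans (le_add_of_nonneg_left zero_le_one)) (by positivity))) hB.le) ?_
    rw [← mul_assoc]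
    rfl

end Vale.Agent.P301Z.Sn
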