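import Vale.Agent.P301Z.Sn.Defs
import Vale.Agent.P281Z.Md.Ext
import Vale.Agent.P281Z.Mf.Fib
import Vale.Agent.P281Z.Mf.An
import Mathlib.Geometry.Manifold.Complex

/-!
# P301, block SNC: a line bundle which is trivial on the fibres is trivial near a smooth fibre
-/

set_option linter.unusedSectionVars false

open scoped Manifold ContDiff Topology
open Set Filter
open Vale.Agent.P272.K Vale.Agent.P285.H281.FD
open Vale.Agent.P277Z (Hol Nz Dvd gen at_chart hol_const eq_of_gen gen_of_nhds)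
open Vale.Agent.P277Z.Slc (LEq Snc Ind)
open Vale.Agent.P277.HD (pull)
open Vale.Agent.P281Z

noncomputable section

namespace Vale.Agent.P301Z.Sn

namespace Th

variable {n : ℕ} {X : Type} [TopologicalSpace X] [ChartedSpace (Cm n) X]
  [IsManifold 𝓘(ℂ, Cm n) ω X] {L : Bd X} {O D : Set X} {s : L.ι → X → ℂ} {ζ : X → ℂ}

variable (n L) in
/-- a section over `O` -/
def Sc (O : Set X) (s : L.ι → X → ℂ) : Prop :=
  (∀ a, ∀ x ∈ O, x ∈ L.U a → Hol n (s a) x) ∧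
    ∀ a b, ∀ x ∈ O, x ∈ L.U a → x ∈ L.U b → s a x = L.g a b x * s b x

theorem Sc.mono (h : Sc n L O s) (k : D ⊆ O) : Sc n L D s :=
  ⟨fun a x hx => h.1 a x (k hx), fun a b x hx => h.2 a b x (k hx)⟩

theorem cancel {a b : X → ℂ} {x : X} (hζ : LEq n D x ζ) (ha : ContinuousAt a x)
    (hb : ContinuousAt b x) (h : ∀ᶠ y in 𝓝 x, a y * ζ y = b y * ζ y) : a x = b x :=
  eq_of_gen ha hb ((((leq_nz hζ).gen hζ.hol).and (gen_of_nhds h)).mono fun _ k =>
    mul_right_cancel₀ k.1 k.2)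

/-- division by an equation of a divisor -/
theorem div (hL : IsLB n L) (hO : IsOpen O) (hζ : ∀ x ∈ O, LEq n D x ζ) (hs : Sc n L O s)
    (h0 : ∀ a, ∀ x ∈ O, x ∈ L.U a → x ∈ D → s a x = 0) :
    ∃ s', Sc n L O s' ∧ ∀ a, ∀ x ∈ O, x ∈ L.U a → s a x = s' a x * ζ x := by
  have h1 : ∀ a x, x ∈ O → x ∈ L.U a → Dvd n ζ (s a) x := fun a x hx ha => by
    by_cases k : x ∈ D
    · refine Md.leq_red (hζ x hx) k _ (hs.1 a x hx ha) ?_
      filter_upwards [(hζ x hx).1, hO.mem_nhds hx, lb_near hL ha] with y k1 k2 k3 k4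
        using h0 a y k2 k3 (k1.1 k4)
    · exact Dvd.of_ne (hζ x hx).hol (mt (hζ x hx).mem.1 k) (hs.1 a x hx ha)
  choose! q q1 q2 using h1
  have h2 : ∀ a, ∀ x ∈ O, x ∈ L.U a → ∀ᶠ y in 𝓝 x, q a x y = q a y y := fun a x hx ha => by
    filter_upwards [(q1 a x hx ha).near, (q2 a x hx ha).eventually_nhds, hO.mem_nhds hx,
      lb_near hL ha] with y k1 k2 k3 k4
    refine cancel (hζ y k3) k1.cont (q1 a y k3 k4).cont ?_
    filter_upwards [k2, q2 a y k3 k4] with z k5 k6 using k5.symm.trans k6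
  refine ⟨fun a x => q a x x, ⟨fun a x hx ha => (q1 a x hx ha).congr (h2 a x hx ha),
    fun a b x hx ha hb => ?_⟩, fun a x hx ha => (q2 a x hx ha).self_of_nhds⟩
  refine cancel (a := q a x) (b := fun y => L.g a b y * q b x y) (hζ x hx) (q1 a x hx ha).cont
    ((lb_hol hL ha hb).mul (q1 b x hx hb)).cont ?_
  filter_upwards [q2 a x hx ha, q2 b x hx hb, hO.mem_nhds hx, lb_near hL ha, lb_near hL hb]
    with y k1 k2 k3 k4 k5
  rw [← k1, mul_assoc, ← k2, hs.2 a b y k3 k4 k5]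

/-- the maximal power of the equation which divides a section -/
theorem maxdiv (hL : IsLB n L) (hO : IsOpen O) (hζ : ∀ x ∈ O, LEq n D x ζ) (hs : Sc n L O s)
    {a : L.ι} {x : X} (hx : x ∈ O) (ha : x ∈ L.U a) (hD : x ∈ D) (h0 : Nz (s a) x) :
    ∃ s', Sc n L O s' ∧ ∃ b, ∃ y ∈ O, y ∈ L.U b ∧ y ∈ D ∧ s' b y ≠ 0 := by
  obtain ⟨j, b, b1, b2, b3⟩ := Md.exists_ord (hζ x hx) hD (hs.1 a x hx ha) h0
  by_contra! c
  have key : ∀ k : ℕ, ∃ s', Sc n L O s' ∧ ∀ y ∈ O, y ∈ L.U a → s a y = s' a y * ζ y ^ k := by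
    intro k
    induction k with
    | zero => exact ⟨s, hs, by simp⟩
    | succ k ih =>
      obtain ⟨s', c1, c2⟩ := ih
      obtain ⟨s'', c3, c4⟩ := div hL hO hζ c1 (c s' c1)
      exact ⟨s'', c3, fun y p q => by rw [c2 y p q, c4 a y p q]; ring⟩
  obtain ⟨s', c1, c2⟩ := key (j + 1)
  refine b2 ⟨s' a, c1.1 a x hx ha, b1.eq_of_gen ((c1.1 a x hx ha).mul (hζ x hx).hol) ?_⟩
  filter_upwards [(leq_nz (hζ x hx)).gen (hζ x hx).hol, gen_of_nhds b3,
    gen_of_nhds (hO.mem_nhds hx), gen_of_nhds (lb_near hL ha)] with y k1 k2 k3 k4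
  refine mul_left_cancel₀ (pow_ne_zero j k1) ?_
  rw [← k2, c2 y k3 k4]
  ring

/-- on a compact connected manifold, two sections are proportional if one has no zero -/
theorem dich [CompactSpace X] [ConnectedSpace X] (hL : IsLB n L) {σ : L.ι → X → ℂ}
    (hσ : IsSec n L σ) (h0 : ∀ x, NZ L σ x) (hs : IsSec n L s) {b : L.ι} {y : X} (hb : y ∈ L.U b)
    (hy : s b y ≠ 0) (x : X) : NZ L s x := by
  obtain ⟨r, hr⟩ := glue hL (fun a x => s a x / σ a x) (fun _ => True) fun a a' x p q _ => by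
    rw [hs.change a a' x p q, hσ.change a a' x p q, mul_div_mul_left _ _ (hL.ne_zero a a' x p q)]
  have h1 : ∀ z, Hol n r z := fun z => by
    obtain ⟨a, ha⟩ := hL.cover z
    exact ((sec_hol hs ha).div (sec_hol hσ ha) (h0 z a ha)).congr
      ((lb_near hL ha).mono fun w hw => (hr a w hw trivial).symm)
  have h2 : r x = r y := by
    refine MDifferentiable.apply_eq_of_compactSpace (I := 𝓘(ℂ, Cm n)) (fun z => ?_) x y
    rw [mdifferentiableAt_iff]
    exact ⟨(h1 z).cont, (h1 z _ (at_chart z)).differentiableAt.differentiableWithinAt⟩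
  intro a ha k
  rw [hr a x ha trivial, hr b y hb trivial, k, zero_div] at h2
  exact div_ne_zero hy (h0 y b hb) h2.symm

theorem gen_theta (H : GR) {V : Mf n} {C : Mf 1} {f : V.X → C.X} {o : C.X} {L : Bd V.X}
    (hC : ConnectedSpace C.X) (hf : HolM n 1 f) (hL : IsLB n L)
    (h : ∀ᶠ t in 𝓝 o, (∀ x, f x = t → Sbm n 1 f x) ∧ ∃ (d : ℕ) (Y : Mf d) (i : Y.X → V.X)
      (σ : L.ι → Y.X → ℂ), Emb d n i (f ⁻¹' {t}) ∧ ConnectedSpace Y.X ∧ IsSec d (pull i L) σ ∧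
        ∀ y, NZ (pull i L) σ y) :
    ∃ (U : Set C.X) (θ : L.ι → V.X → ℂ), IsOpen U ∧ o ∈ U ∧ Sc n L (f ⁻¹' U) θ ∧
      ∀ x, f x ∈ U → NZ L θ x := by
  obtain ⟨S, ρ, hS, -, hG⟩ := H n 1 V C f L Empty (fun l => l.elim) (fun _ => 0) hC hf hL
    fun x => ⟨fun l => l.elim, fun l => l.elim, fun l => l.1.elim, fun _ _ =>
      haveI : IsEmpty {l : Empty // x ∈ (l.elim : Set V.X)} := ⟨fun l => l.1.elim⟩
      linearIndependent_empty_type⟩
  obtain ⟨U, k, s, u1, u2, u3, -, u4⟩ := hG o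
  obtain ⟨hs, d, Y, i, σ, y1, y2, y3, y4⟩ := h.self_of_nhds
  obtain ⟨y₀⟩ : Nonempty Y.X := inferInstance
  obtain ⟨a, ha⟩ := hL.cover (i y₀)
  obtain rfl : f (i y₀) = o := y1.fib y₀
  obtain ⟨g, g1, g2, g3⟩ := (hs _ rfl).sec (hf.at _)
  have g4 : Tendsto g (𝓝 (f (i y₀))) (𝓝 (i y₀)) := by simpa only [ContinuousAt, g1] using g2.cont
  obtain ⟨j, hj⟩ : ∃ j, Nz (s j a) (i y₀) := by
    by_contra! c
    simp only [Nz, not_not] at c
    obtain ⟨t, t1, t2, t3, t4, t5, -, d', Y', i', σ', z1, -, z3, z4⟩ := ((hS.freq _).and_eventually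
      ((g4.eventually (eventually_all.2 c)).and (g3.and ((g4.eventually (lb_near hL ha)).and
        ((show ∀ᶠ t in _, t ∈ U from u1.mem_nhds u2).and h))))).exists
    obtain ⟨α, hα⟩ := (u4 t t5 t1).1 d' Y' i' z1 σ'
      (secP_of_sec z1.hol.cont z3 fun _ => le_rfl)
    obtain ⟨y, hy⟩ := z1.ex (show g t ∈ f ⁻¹' {t} from t3)
    refine z4 y a (show i' y ∈ L.U a from hy ▸ t4) ?_
    rw [hα y (fun l => l.elim) a (hy ▸ t4), hy]
    simp [t2]
  have he := at_chart (n := 1) (f (i y₀))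
  set e := chartAt (Cm 1) (f (i y₀))
  obtain ⟨W, w1, w2, w3⟩ := eventually_nhds_iff.1 (h.and ((at_near he).and
    (show ∀ᶠ t in _, t ∈ U from u1.mem_nhds u2)))
  have hO := w2.preimage hf.cont
  have hζ : ∀ x ∈ f ⁻¹' W, LEq n (f ⁻¹' {f (i y₀)}) x fun z => e (f z) 0 - e (f (i y₀)) 0 := by
    intro x hx
    have p1 := (w1 _ hx).2.1
    have p2 := (sbm_iff_ind (hf.at x) p1).1 ((w1 _ hx).1.1 x rfl)
    refine LEq.of_chart ?_ ((p2.1 0).sub (hol_const _ _)) (at_chart x) fun _ => ?_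
    · filter_upwards [hf.cont.continuousAt.eventually (at_near p1)] with z hz
      refine ⟨fun k => e.injOn hz.2 he.2 (funext fun b => ?_), fun k => ?_⟩
      · rw [Subsingleton.elim b 0]
        exact sub_eq_zero.1 k
      · rw [show f z = _ from k, sub_self]
    · rw [P277Z.Slc.dd_sub_const]
      exact (p2.2 _ (at_chart x)).ne_zero 0
  obtain ⟨θ, c1, b, x, c2, c3, c4, c5⟩ := maxdiv (s := s j) hL hO hζ
    ⟨fun a x hx ha => (u3 j).hol a x (w1 _ hx).2.2 ha fun l => l.elim,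
      fun a b x hx ha hb => (u3 j).chg a b x (w1 _ hx).2.2 ha hb fun l => l.elim⟩ w3 ha rfl hj
  obtain ⟨y, rfl⟩ := y1.ex c4
  have hW : ∀ z, i z ∈ f ⁻¹' W := fun z => show f (i z) ∈ W from (y1.fib z).symm ▸ w3
  have c6 := dich (L := pull i L) (s := fun a z => θ a (i z)) (y1.hol.lb hL) y3 y4
    (isSec_of (fun a z hz => y1.hol.hol (c1.1 a _ (hW z) hz))
      fun a a' z p q => c1.2 a a' _ (hW z) p q) c3 c5
  have c7 : ∀ᶠ t in 𝓝 (f (i y₀)), ∀ x ∈ f ⁻¹' {t}, NZ L θ x := by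
    refine hf.cont.isClosedMap.eventually_nhds_fiber _ fun x hx => ?_
    obtain ⟨z, rfl⟩ := y1.ex hx
    obtain ⟨a, ha⟩ := hL.cover (i z)
    filter_upwards [(c1.1 a _ (hW z) ha).ne_near (c6 z a ha), lb_near hL ha, hO.mem_nhds (hW z)]
      with w k1 k2 k3 a' k4
    rw [c1.2 a' a w k3 k4 k2]
    exact mul_ne_zero (hL.ne_zero _ _ _ k4 k2) k1
  obtain ⟨W', v1, v2, v3⟩ := eventually_nhds_iff.1 (c7.and (w2.mem_nhds w3))
  exact ⟨W', θ, v2, v3, c1.mono fun x hx => (v1 _ hx).2, fun x hx => (v1 _ hx).1 x rfl⟩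

end Th

theorem theta_of (H : GR) : THETA := by
  intro N q V C f o hC hf h
  obtain ⟨U, θ, a, b, c, d⟩ := Th.gen_theta (L := (Bd.can (N + 1) V.X).pow q) (o := o) H hC hf
    (lb_pow P277Z.Slc.isLB_can q) (h.mono fun t ⟨h1, Y, i, u, h2, h3, h4, h5⟩ => ⟨h1, N, Y, i, by
      obtain ⟨τ, hτ⟩ := (adj_iso h2 hf h1).symm
      have hK : IsLB N ((Bd.can N Y.X).pow q) := lb_pow P277Z.Slc.isLB_can q
      have hr : LRel N (pull i ((Bd.can (N + 1) V.X).pow q)) ((Bd.can N Y.X).pow q)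
          fun a b x => τ a b x ^ q :=
        ⟨fun a b x p p' => (hτ.hol a b x p p').pow q,
          fun a b x p p' => pow_ne_zero q (hτ.ne a b x p p'), fun a a' b b' x p1 p2 p3 p4 =>
          (mul_pow _ _ q).symm.trans ((congrArg (· ^ q) (hτ.chg a a' b b' x p1 p2 p3 p4)).trans
            (mul_pow _ _ q))⟩
      exact ⟨_, h2, h3, hr.sec (h2.hol.lb (lb_pow P277Z.Slc.isLB_can q)) hK
        (isSec_of (L := (Bd.can N Y.X).pow q) (s := u) (fun e y hy => (h4 e y hy).1) h5),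
        fun y => hr.nz hK fun e hy => (h4 e y hy).2⟩⟩)
  exact ⟨U, θ, a, b, fun e x p p' => ⟨c.1 e x p' p, d x p' e p⟩,
    fun e e' x p1 p2 p3 => c.2 e e' x p3 p1 p2⟩

end Vale.Agent.P301Z.Sn
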