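import Vale.Agent.P301Z.Sn.Defs
import Vale.Agent.P281Z.Gr.Main
import Vale.Agent.P281Z.Nt.Neat
import Vale.Agent.P281Z.Nt.Hyp
import Mathlib.Geometry.Manifold.Complex

/-!
# P301, block SNC: a line bundle which is trivial on the fibres is locally trivial over a curve
-/

open scoped Manifold ContDiff Topology
open Set Filter Matrix
open Vale.Agent.P272.K Vale.Agent.P285.H281.FD
open Vale.Agent.P277Z (Hol at_chart hol_const)
open Vale.Agent.P277Z.Slc (LEq Snc Ind isLB_can)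
open Vale.Agent.P277Z.Slc.Dv (ext ext_at ext_eq dense_compl)
open Vale.Agent.P277.HD (pull)
open Vale.Agent.P281Z

noncomputable section

namespace Vale.Agent.P301Z.Sn

namespace Theta

theorem hol_cst {d : ℕ} {F : Mf d} [ConnectedSpace F.X] {a : F.X → ℂ} (h : ∀ x, Hol d a x)
    (x y : F.X) : a x = a y := by
  refine MDifferentiable.apply_eq_of_compactSpace (I := 𝓘(ℂ, Cm d)) (fun x => ?_) x y
  have he := at_chart (n := d) x
  refine ((h x _ he).differentiableAt.mdifferentiableAt.comp x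
    (mdifferentiableAt_atlas he.1 he.2)).congr_of_eventuallyEq ?_
  filter_upwards [P277Z.At.left he] with y hy using (congrArg a hy).symm

theorem secP {d n : ℕ} {F : Mf d} {V : Mf n} {i : F.X → V.X} {O : Set F.X} {L : Bd F.X}
    {s : L.ι → F.X → ℂ} (h1 : ∀ a, ∀ x ∈ O, x ∈ L.U a → Hol d (s a) x)
    (h2 : ∀ a b, ∀ x ∈ O, x ∈ L.U a → x ∈ L.U b → s a x = L.g a b x * s b x) :
    SecP d n i O L (Empty.elim : Empty → Set V.X) Empty.elim s :=
  ⟨fun a x k k' _ => h1 a x k k', fun a b x k k' k'' _ => h2 a b x k k' k'', fun a x k k' _ _ =>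
    ⟨‖s a x‖ + 1, ((h1 a x k k').continuousAt'.norm.eventually
      (gt_mem_nhds (lt_add_one ‖s a x‖))).mono fun y c _ => by simpa using c.le⟩⟩

/-- the fibre over `t` is connected, and `L` is trivial on it -/
def Tr {n p : ℕ} {V : Mf n} {C : Mf p} (f : V.X → C.X) (L : Bd V.X) (t : C.X) : Prop :=
  ∃ (d : ℕ) (Y : Mf d) (i : Y.X → V.X) (u : L.ι → Y.X → ℂ), Emb d n i (f ⁻¹' {t}) ∧
    ConnectedSpace Y.X ∧ (∀ a y, i y ∈ L.U a → Hol d (u a) y ∧ u a y ≠ 0) ∧
    ∀ a b y, i y ∈ L.U a → i y ∈ L.U b → u a y = L.g a b (i y) * u b y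

variable {n p : ℕ} {V : Mf n} {L : Bd V.X}

theorem Tr.zero {C : Mf p} {f : V.X → C.X} {t : C.X} (h : Tr f L t) (hL : IsLB n L)
    {s : L.ι → V.X → ℂ} (h1 : ∀ a x, f x = t → x ∈ L.U a → Hol n (s a) x)
    (h2 : ∀ a b x, f x = t → x ∈ L.U a → x ∈ L.U b → s a x = L.g a b x * s b x) {a b : L.ι}
    {x x' : V.X} (hx : f x = t) (ha : x ∈ L.U a) (h0 : s a x = 0) (hx' : f x' = t)
    (hb : x' ∈ L.U b) : s b x' = 0 := by
  obtain ⟨d, Y, i, u, hi, _, k1, k2⟩ := h
  choose c hc using fun y => hL.cover (i y)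
  have e : ∀ a y, i y ∈ L.U a → s a (i y) / u a y = s (c y) (i y) / u (c y) y := fun a y k => by
    rw [h2 a _ _ (hi.fib y) k (hc y), k2 a _ y k (hc y),
      mul_div_mul_left _ _ (hL.ne_zero _ _ _ k (hc y))]
  obtain ⟨y, rfl⟩ := hi.rng.ge hx
  obtain ⟨y', rfl⟩ := hi.rng.ge hx'
  have k := hol_cst (a := fun y => s (c y) (i y) / u (c y) y) (fun y =>
    (((hi.hol.at y).hol (h1 _ _ (hi.fib y) (hc y))).mul ((k1 _ y (hc y)).1.inv
      (k1 _ y (hc y)).2)).congr ((hi.hol.cont.continuousAt.eventually (lb_near hL (hc y))).mono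
        fun z k => (div_eq_mul_inv _ _).symm.trans (e _ z k))) y' y
  simp only [← e _ _ ha, ← e _ _ hb, h0, zero_div] at k
  exact (div_eq_zero_iff.1 k).resolve_right (k1 _ _ hb).2

theorem triv (hG : GR) {C : Mf 1} [ConnectedSpace C.X] {f : V.X → C.X} (hf : HolM n 1 f)
    (hL : IsLB n L) {o : C.X} (h : ∀ᶠ t in 𝓝 o, (∀ x, f x = t → Sbm n 1 f x) ∧ Tr f L t) :
    ∃ (U : Set C.X) (θ : L.ι → V.X → ℂ), IsOpen U ∧ o ∈ U ∧
      (∀ a x, x ∈ L.U a → f x ∈ U → Hol n (θ a) x ∧ θ a x ≠ 0) ∧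
      ∀ a b x, x ∈ L.U a → x ∈ L.U b → f x ∈ U → θ a x = L.g a b x * θ b x := by
  have off0 : ∀ x : V.X, x ∈ off (Empty.elim : Empty → Set V.X) := fun _ l => l.elim
  obtain ⟨S, ρ, hS, -, H⟩ := hG n 1 V C f L Empty Empty.elim Empty.elim ‹_› hf hL
    (Nt.snc_empty V _)
  obtain ⟨U, k, s, hU, ho, hs, gen, bc⟩ := H o
  have s1 := fun j a x (c : f x ∈ U) (d : x ∈ L.U a) => (hs j).hol a x c d (off0 _)
  have s2 := fun j a b x (c : f x ∈ U) (d : x ∈ L.U a) (d' : x ∈ L.U b) =>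
    (hs j).chg a b x c d d' (off0 _)
  by_cases A : ∃ j, ∀ a x, f x = o → x ∈ L.U a → s j a x ≠ 0
  · obtain ⟨j, hj⟩ := A
    obtain ⟨O, o1, o2, o3⟩ := eventually_nhds_iff.1 ((hf.cont.isClosedMap.eventually_nhds_fiber
      (p := fun x => ∀ a, x ∈ L.U a → s j a x ≠ 0) o fun x hx => by
        obtain ⟨b, hb⟩ := hL.cover x
        have c : f x ∈ U := (hx : f x = o).symm ▸ ho
        filter_upwards [(s1 j b x c hb).continuousAt'.eventually_ne (hj b x hx hb), lb_near hL hb,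
          hf.cont.continuousAt.eventually (hU.mem_nhds c)] with y y1 y2 y3 a ha
        exact s2 j a b y y3 ha y2 ▸ mul_ne_zero (hL.ne_zero _ _ _ ha y2) y1).and (hU.mem_nhds ho))
    exact ⟨O, s j, o2, o3, fun a x c d => ⟨s1 j a x (o1 _ d).2 c, (o1 _ d).1 x rfl a c⟩,
      fun a b x c c' d => s2 j a b x (o1 _ d).2 c c'⟩
  exfalso
  have z : ∀ j a x, f x = o → x ∈ L.U a → s j a x = 0 := fun j a x c d => by
    have := not_exists.1 A j
    push Not at this
    obtain ⟨b, x', c', d', e⟩ := this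
    exact h.self_of_nhds.2.zero hL (fun a x k => s1 j a x (k.symm ▸ ho))
      (fun a b x k => s2 j a b x (k.symm ▸ ho)) c' d' e c d
  have he := at_chart (n := 1) o
  set e := chartAt (Cm 1) o
  have i1 := fib_ind (f := fun t : C.X => t) (holM_id.at o) (sbm_id o) he
  set τ : C.X → ℂ := fun t => e t 0 - e o 0
  have hτ : LEq 1 {o} o τ := .of_chart ((fib_ev (f := fun t : C.X => t) continuousAt_id he).mono
    fun t c => (c.trans Fin.forall_fin_one).symm) (i1.1 0) he fun _ => (i1.2 e he).ne_zero 0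
  obtain ⟨O, o1, o2, o3⟩ := eventually_nhds_iff.1 (h.and (hτ.near.and (hU.mem_nhds ho)))
  have q : ∀ x, f x ∈ O → LEq n (f ⁻¹' {o}) x fun y => τ (f y) := fun x c =>
    ((o1 _ c).1.1 x rfl).leq (hf.at x) (o1 _ c).2.1
  have hD : Dense (f ⁻¹' {o})ᶜ := dense_compl (n := n) fun x => by
    by_cases c : f x = o
    · exact ⟨_, q x (c.symm ▸ o3)⟩
    · exact ⟨fun _ => 1, .of_chart ((hf.cont.continuousAt.eventually_ne c).mono fun y d =>
        iff_of_false one_ne_zero d) (hol_const _ _) (at_chart x) fun d => absurd d one_ne_zero⟩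
  let r : Fin k → L.ι → V.X → ℂ := fun j a => ext (f ⁻¹' {o})ᶜ fun x => s j a x / τ (f x)
  have r1 : ∀ j a x, f x ∈ O → x ∈ L.U a →
      Hol n (r j a) x ∧ ∀ᶠ y in 𝓝 x, s j a y = r j a y * τ (f y) := fun j a x c d => by
    obtain ⟨b, b1, b2⟩ := Nt.Hp.div (q x c) (s1 j a x (o1 _ c).2.2 d)
      ((lb_near hL d).mono fun y y1 y2 => z j a y y2 y1)
    have b3 := ext_eq (f := fun x => s j a x / τ (f x)) hD b1 (by
      filter_upwards [b2, (q x c).1] with y y1 y2 y3
      rw [y1, mul_div_cancel_right₀ _ (mt y2.1 y3)])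
    exact ⟨b1.congr b3, by filter_upwards [b2, b3] with y y1 y2 using y1.trans (y2 ▸ rfl)⟩
  choose a a1 a2 using fun j => gen O o2 (r j) (secP (fun a x c d => (r1 j a x c d).1)
    fun a b x c d d' => ext_at (u := fun y => L.g a b y * r j b y) hD
      ((lb_hol hL d d').mul (r1 j b x c d').1).continuousAt' (by
        filter_upwards [(r1 j b x c d').2, (q x c).1, lb_near hL d, lb_near hL d',
          hf.cont.continuousAt.eventually (o2.mem_nhds c)] with y y1 y2 y3 y4 y5 y6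
        rw [s2 j a b y (o1 _ y5).2.2 y3 y4, y1, ← mul_assoc,
          mul_div_cancel_right₀ _ (mt y2.1 y6)])) o ⟨ho, o3⟩
  have m : ∀ᶠ t in 𝓝 o, (1 - τ t • Matrix.of fun j l => a j l t).det ≠ 0 := by
    refine ContinuousAt.eventually_ne (continuous_id.matrix_det.continuousAt.comp
      (continuousAt_const.sub (hτ.hol.continuousAt'.smul (continuousAt_pi.2 fun j =>
        continuousAt_pi.2 fun l => (a1 j l).continuousAt')))) ?_
    simp [τ]
  obtain ⟨t, t1, t2, t3, t4⟩ := ((mem_closure_iff_frequently.1 (hS.2 o)).and_eventually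
    (m.and ((eventually_all.2 a2).and (o2.mem_nhds o3)))).exists
  obtain ⟨d, Y, i, u, hi, _, k1, k2⟩ := (o1 t t4).1.2
  obtain ⟨c, hc⟩ := (bc t (o1 t t4).2.2 t1).1 d Y i hi u
    (secP (L := pull i L) (fun a y _ k => (k1 a y k).1) fun a b y _ k k' => k2 a b y k k')
  obtain ⟨y⟩ : Nonempty Y.X := inferInstance
  obtain ⟨b, hb⟩ := hL.cover (i y)
  have v : (fun j => s j b (i y)) = 0 := eq_zero_of_mulVec_eq_zero t2 (funext fun j => by
    rw [sub_mulVec, one_mulVec, smul_mulVec, Pi.sub_apply,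
      (r1 j b _ ((hi.fib y).symm ▸ t4) hb).2.self_of_nhds, t3 j _ (off0 _) (hi.fib y) b hb, hi.fib y,
      mul_comm]
    exact sub_self _)
  refine (k1 b y hb).2 ((hc y (off0 _) b hb).trans (Finset.sum_eq_zero fun j _ => ?_))
  rw [congrFun v j, Pi.zero_apply, mul_zero]

end Theta

open Theta in
theorem theta : THETA := by
  intro N q V C f o _ hf h
  refine triv (L := (Bd.can (N + 1) V.X).pow q) (Gr.gr_of genS) hf (lb_pow isLB_can q)
    (h.mono fun t ⟨k, Y, i, u, hi, hc, k1, k2⟩ => ⟨k, ?_⟩)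
  have a := adj (sig (Nat.add_comm N 1)) hi hf k (at_chart t)
  set θ := th (sig (Nat.add_comm N 1)) f i (chartAt (Cm 1) t)
  have b : ∀ c e y, At c y → At e (i y) →
      u c y / θ c e y ^ q = u (chartAt _ y) y / θ (chartAt _ y) e y ^ q := fun c e y hc he => by
    have d := a.chg c _ e e y hc (at_chart y) he he
    rw [show (pull i (Bd.can (N + 1) V.X)).g e e y = 1 from lb_self isLB_can he, mul_one] at d
    rw [k2 c _ y hc (at_chart y), d, mul_pow]
    exact mul_div_mul_left _ _ (pow_ne_zero _ (isLB_can.ne_zero _ _ _ hc (at_chart y)))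
  refine ⟨N, Y, i, fun e y => u (chartAt _ y) y / θ (chartAt _ y) e y ^ q, hi, hc, fun e y he =>
    ⟨(((k1 _ y (at_chart y)).1.mul ((a.hol _ e y (at_chart y) he).pow q |>.inv
      (pow_ne_zero _ (a.ne _ e y (at_chart y) he)))).congr ?_), div_ne_zero (k1 _ y (at_chart y)).2
        (pow_ne_zero _ (a.ne _ e y (at_chart y) he))⟩, fun e e' y he he' => ?_⟩
  · filter_upwards [at_near (at_chart (n := N) y), hi.hol.cont.continuousAt.eventually (at_near he)]
      with z z1 z2 using (div_eq_mul_inv _ _).symm.trans (b _ e z z1 z2)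
  · have d := a.chg _ _ e e' y (at_chart y) (at_chart y) he he'
    rw [lb_self isLB_can (at_chart y), one_mul] at d
    have d' : (jacM e e' (i y)).det ≠ 0 := isLB_can.ne_zero _ _ _ he he'
    show _ / _ = (jacM e e' (i y)).det ^ q * (_ / _)
    rw [← d, mul_pow, ← mul_div_assoc, mul_comm (_ ^ q) (u _ _)]
    exact (mul_div_mul_right _ _ (pow_ne_zero q d')).symm

end Vale.Agent.P301Z.Sn
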