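import Vale.Agent.P301Z.Sn.Theta
import Vale.Agent.P281Z.Gr.Main
import Vale.Agent.P281Z.Rs.All

/-!
# P301, block SNC: the closed form of THETA
-/

namespace Vale.Agent.P301Z.Sn

open Vale.Agent.P281Z

theorem theta : THETA := theta_of (Gr.gr_of (gen_of_res res))

end Vale.Agent.P301Z.Sn
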